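import Crest.Agent.X212.Cmp73.Gpf
import Crest.Agent.X212.Cmp73.Qw
import Crest.Agent.X212.Shi84.Int
import Crest.Agent.X212.Shi84.Unq
import Crest.Agent.X212.Pat85.Ext

-- ▼ part X212/Th31/Ft
section

/-!
# Row 212, COMP (helper31): the modified curvature `Fg - θ` is a consistent field
-/

set_option autoImplicit false
set_option linter.unusedSectionVars false
set_option linter.unusedVariables false
open Set Filter Topology Function MeasureTheory Finset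
open scoped ContDiff Manifold InnerProductSpace NNReal

noncomputable section
namespace Crest.Agent.X212.Th31

open Cmp73 An
open Wz78 (nab curv dir SA d2 dv2 Vb pR idx_apply pg_of_mem nab_add nab_sub nab_smul nab_sum nab_csmul)
open Sob92 (dv)

section gen
variable {E H : Type*} [NormedAddCommGroup E] [NormedSpace ℝ E] [TopologicalSpace H]
  {I : ModelWithCorners ℝ E H} {M : Type*} [TopologicalSpace M] [ChartedSpace H M]
  {V : Type*} [NormedAddCommGroup V] [NormedSpace ℝ V] {ι : Type*} [Fintype ι] [IsManifold I 1 M]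
  {e : ι → (x : M) → TangentSpace I x} {c : ι → ι → ι → M → ℝ} {A : ι → M → V →L[ℝ] V} {x : M}

/-- frame divergence of the dual of a two-form -/
theorem dv2_star' {θ : ι → ι → M → V} {o : ι → ι → ι → ι → M → ℝ} (hs : ∀ a b, SA I (θ a b) x)
    (ho : ∀ a b k l, SA I (o a b k l) x) (o12 : ∀ a b k l, o a b k l x = -o b a k l x)
    (o23 : ∀ a b k l, o a b k l x = -o a k b l x) (o34 : ∀ a b k l, o a b k l x = -o a b l k x) (m : ι) :
    dv2 I e A (fun a b y => ∑ k, ∑ l, o a b k l y • θ k l y) m x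
      = ∑ a, ∑ k, ∑ l, (dv I (e a) (o a m k l) x • θ k l x + o a m k l x • ∑ j, c k l j x • θ j a x)
        + (1 / 3 : ℝ) • ∑ a, ∑ k, ∑ l, o a m k l x • d2 I e c A θ a k l x := by
  have cyc : ∀ X : ι → ι → ι → V,
      ∑ a, ∑ k, ∑ l, o a m k l x • X k l a = ∑ a, ∑ k, ∑ l, o a m k l x • X a k l := fun X => by
    have : ∀ a k l, o a m k l x = o k m l a x := fun a k l => by
      rw [o12, o23, o34, o12 k]; ring
    rw [sum_congr rfl fun a _ => sum_congr rfl fun k _ => sum_congr rfl fun l _ => by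
      rw [this a k l], sum_comm]
    exact sum_congr rfl fun k _ => sum_comm
  have h := cyc fun a k l => nab I e A a (θ k l) x - ∑ j, c k l j x • θ j a x
  have h' := (cyc fun k l a => nab I e A a (θ k l) x - ∑ j, c k l j x • θ j a x).symm
  have e1 : dv2 I e A (fun a b y => ∑ k, ∑ l, o a b k l y • θ k l y) m x = ∑ a, ∑ k, ∑ l,
      (dv I (e a) (o a m k l) x • θ k l x + o a m k l x • nab I e A a (θ k l) x) :=
    sum_congr rfl fun a _ => by
      rw [nab_sum a _ fun k => SA.sum _ fun l _ => (ho a m k l).smul (hs k l)]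
      refine sum_congr rfl fun k _ => ?_
      rw [nab_sum a _ fun l => (ho a m k l).smul (hs k l)]
      exact sum_congr rfl fun l _ => nab_smul a (ho a m k l) (hs k l)
  simp only [e1, d2, smul_add, sum_add_distrib, h, h']
  simp only [smul_sub, sum_sub_distrib]
  module

theorem d2_sub {θ θ' : ι → ι → M → V} (hs : ∀ a b, SA I (θ a b) x) (hs' : ∀ a b, SA I (θ' a b) x)
    (a i l : ι) : d2 I e c A (fun a b y => θ a b y - θ' a b y) a i l x =
      d2 I e c A θ a i l x - d2 I e c A θ' a i l x := by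
  simp only [d2, fun a i l => nab_sub (e := e) (A := A) a (hs i l) (hs' i l), smul_sub, sum_sub_distrib]
  abel

end gen

variable {E : Type} [NormedAddCommGroup E] [NormedSpace ℝ E] [FiniteDimensional ℝ E]
  [MeasurableSpace E] [BorelSpace E]
  {HM : Type} [TopologicalSpace HM] {I : ModelWithCorners ℝ E HM}
  {ι lam : Type} [Fintype ι] [Fintype lam]

/-- the divergence of a two-form with values in `g` in terms of its self-dual part -/
theorem form_div {M : Type} [TopologicalSpace M] [ChartedSpace HM M] [IsManifold I ∞ M]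
    [MeasurableSpace M] {m : Md M ι lam} {B : Base M ι lam} (hB : B.OK I) {e : ι → (x : M) → TangentSpace I x}
    (c : ι → ι → ι → M → ℝ) {A : ι → M → m.A →L[ℝ] m.A} {T : M → Fm (ι × ι) m.A} {x : M}
    (hs : ∀ s, SA I (fun y => T y s) x) (mem : ∀ y s, T y s ∈ m.gS y)
    (a2 : ∀ y s, ∑ t, B.a2 y s t • T y t = T y s) (k : ι) :
    dv2 I e A (fun a b y => T y (a, b)) k x = (2 : ℝ) • dv2 I e A (fun a b y => m.p2 B y (T y) (a, b)) k x
      - (1 / 2 : ℝ) • ∑ a, ∑ i, ∑ l, (dv I (e a) (B.o a k i l) x • T x (i, l)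
          + B.o a k i l x • ∑ j, c i l j x • T x (j, a))
      - (1 / 6 : ℝ) • ∑ a, ∑ i, ∑ l, B.o a k i l x • d2 I e c A (fun a b y => T y (a, b)) a i l x := by
  have h := dv2_star' (e := e) (c := c) (A := A) (θ := fun a b y => T y (a, b)) (fun a b => hs (a, b))
    (fun a b k l => hB.so a b k l x) (fun a b k l => hB.o12 a b k l x)
    (fun a b k l => hB.o23 a b k l x) (fun a b k l => hB.o34 a b k l x) k
  have e1 : ∀ a b y, m.p2 B y (T y) (a, b) = (1 / 2 : ℝ) • T y (a, b)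
      + (1 / 4 : ℝ) • ∑ i, ∑ l, B.o a b i l y • T y (i, l) := fun a b y => by
    simp only [Md.p2, idx_apply, pg_of_mem (mem _ _), Base.sd, div_eq_inv_mul, mul_smul,
      ← smul_sum, add_smul, sum_add_distrib, a2, mul_one]
    simp only [Base.st, div_eq_inv_mul, mul_smul, ← smul_sum, Fintype.sum_prod_type]
    module
  have hS : ∀ a, SA I (fun y => ∑ i, ∑ l, B.o a k i l y • T y (i, l)) x := fun a =>
    SA.sum _ fun i _ => SA.sum _ fun l _ => SA.smul (hB.so _ _ _ _ x) (hs _)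
  rw [← sub_eq_iff_eq_add] at h
  rw [← h]
  simp only [dv2, e1, fun a => nab_add (e := e) (A := A) a
    (SA.smul (f := fun _ => (1 / 2 : ℝ)) contMDiffAt_const (hs (a, k)))
    (SA.smul (f := fun _ => (1 / 4 : ℝ)) contMDiffAt_const (hS a)),
    fun a r => nab_csmul (e := e) (A := A) a r (hs (a, k)),
    fun a r => nab_csmul (e := e) (A := A) a r (hS a), sum_add_distrib, ← smul_sum]
  module

variable {α : Type} {X : α → Type} [∀ n, TopologicalSpace (X n)] [∀ n, ChartedSpace HM (X n)]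
  [∀ n, IsManifold I ∞ (X n)] [∀ n, MeasurableSpace (X n)] {r : ℕ}
  {B : ∀ n, Base (X n) ι lam} {G : ∀ n, Geo I (X n) ι lam} {c : ∀ n, Cfg (X n) ι lam r}
  {F : Filter (Σ n, X n)} {θ : ∀ n, X n → Fm (ι × ι) (c n).m.A}

theorem fld_H0 {b : Fb I ι X} {L : Sy ι X} (i : L.κ) (ht : (L.f i).t = true) (μ : ℝ) (n : α) (x : X n) :
    ‖(L.f i).s n x‖ ^ 2 ≤ b.H L 0 μ 0 n x := by
  refine le_trans ?_ (single_le_sum (f := fun i => ((μ ^ (L.f i).d 0) ^ 2)⁻¹ *
    hs I (b.e n) ((L.f i).A n) μ 0 ((L.f i).s n) x)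
    (fun _ _ => mul_nonneg (by positivity) (hs_nonneg ..)) (mem_univ i))
  simp [Fld.d, ht, hs]

variable (G θ) in
/-- the modified curvature -/
abbrev fT (n : α) (x : X n) : Fm (ι × ι) (c n).m.A := (c n).m.Fg (G n).F (c n).W x - θ n x

variable (G θ) in
/-- the modified base system -/
def tbs : Sy ι X where
  κ := (ι × ι) ⊕ ι
  f := Sum.elim (fun s => ⟨fun n => (c n).m.A, WA c, fun n x => fT G θ n x s, false⟩)
    fun a => (gbs G c).f (.inr a)

variable [I.Boundaryless] [∀ n, T2Space (X n)] [∀ n, BorelSpace (X n)]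

/-- **a consistent system** which controls the classes of the base system -/
theorem cons_th (h : Gx B G c F) (hΦ : (gfb G c F).Bd fun n => (c n).Φ)
    (hD : PF (gfb G c F) (gbs G c) sP (WV c) fun n => dir I (G n).F.e (c n).m.ρ (c n).W (c n).Φ)
    (mem : ∀ n y s, θ n y s ∈ (c n).m.gS y)
    (hθ : TH (gfb G c F) (gbs G c) (WA c) fun i l n y => θ n y (i, l))
    (hC : ∀ s, PF (gfb G c F) (gbs G c) sP (WA c) fun n y => ((c n).m.p2 (B n) y
      ((c n).m.Fg (G n).F (c n).W y) - (c n).m.mu (B n) y ((c n).Φ y) ((c n).Φ y) -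
        (c n).m.p2 (B n) y (θ n y)) s) {p : Sy ι X → Prop} (hp : Ev (gfb G c F) (gbs G c) p) :
    ∃ L₁ L₂, Cons (gfb G c F) L₂ ∧ Kat (gfb G c F) L₂ ∧ p L₁ ∧ Sb (gfb G c F) L₁ L₂ := by
  obtain ⟨L, ok, k⟩ := E2.and hθ (.of_ev ((hD.ev.and (Ev.all fun s => (hC s).ev)).and hp))
  set b := gfb G c F
  obtain ⟨t, ⟨kD, kC⟩, kp⟩ := k L _ Sy.Le.rfl Sy.Le.rfl (le_sum_right b _ _)
  have hL := le_sum_left b (gbs G c) L
  set L₂ := (tbs G θ).sum L
  have wθ := fun s : ι × ι => (t.c s.1 s.2).le (le_sum_right b (tbs G θ) L)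
  have sT : ∀ s n, Sm I fun x => fT G θ n x s := fun s n => (h.sF s n).sub ((wθ s).sm n)
  have wT : ∀ s, Wt (b.cx L₂ 3) (WA c) (sU 4) fun n x => fT G θ n x s := fun s =>
    wt_fld (L := L₂) (.inl (.inl s)) h.sA (sT s)
  have wF : ∀ s, Wt (b.cx L₂ 3) (WA c) (sU 4) (gF' G c s) := fun s =>
    ((wT s).add ((wθ s).mono sC_sU)).congr fun _ _ => (sub_add_cancel _ _).symm
  have sb : Sb b ((gbs G c).sum L) L₂ := by
    refine ⟨?_, ?_⟩
    · rintro ((s | a) | i)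
      exacts [wF s, wt_fld (L := L₂) (.inl (.inr a)) h.sV (h.wt_DΦ hL 3 a).sm,
        wt_fld (L := L₂) (.inr i) (ok i).sA (ok i).sm]
    · rintro ((s | a) | i) ht
      exacts [absurd ht Bool.false_ne_true, fld_H0 (L := L₂) (.inl (.inr a)) ht, fld_H0 (L := L₂) (.inr i) ht]
  have mT : ∀ n y s, fT G θ n y s ∈ (c n).m.gS y := fun n y s => sub_mem (Wz78.Fg_mem ..) (mem n y s)
  have aT : ∀ i l n x, fT G θ n x (i, l) = -fT G θ n x (l, i) := fun i l n x => by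
    rw [PiLp.sub_apply, PiLp.sub_apply, t.anti i l n x, neg_sub', ← Wz78.Fg_swap (h.hG n) (h.cn n)]; rfl
  have nT := fun s => ND.of ((wT s).mono sU_sN)
  have n2 : ∀ a i l, ND b L₂ (WA c) fun n =>
      d2 I (b.e n) (b.c n) (WA c n) (fun i l y => fT G θ n y (i, l)) a i l := fun a i l =>
    (((t.d a i l).sb sb).csmul (-1)).congr fun n x => (d2_sub (fun i l => h.sF (i, l) n x)
      (fun i l => (wθ (i, l)).sm n x) a i l).trans (by
        rw [neg_one_smul, ← zero_sub]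
        exact congrArg (· - _) (Wz78.Fg_bianchi (h.hG n) (h.ok n) (h.cn n) (h.spg n) a i l x))
  have wp : ∀ s, Wt (b.cx L₂ 3) (WA c) (sP 3) fun n x => (c n).m.p2 (B n) x (fT G θ n x) s := fun s =>
    have := (h.wt_Φ (dw := 3) hL hΦ).mono (sW_sP (by omega))
    (sb.w ((kC s 3 le_rfl (by omega)).add (h.wt_mu this this s))).congr fun n x => by
      simp only [map_sub, PiLp.sub_apply]; abel
  have nv : ∀ k, ND b L₂ (WA c) fun n => dv2 I (b.e n) (WA c n) (fun i l y => fT G θ n y (i, l)) k :=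
    fun k => ((((ND.sum h.sA fun a => .of (((wp (a, k)).D a).mono fun j => by
      simp only [sP, sN, Prod.mk_le_mk]; omega)).csmul 2).sub ((ND.sum h.sA fun a => .sum h.sA fun i =>
        .sum h.sA fun l => ((nT (i, l)).smul (Wz78.cs_D (h.gb.o a k i l) a)).add
          ((ND.sum h.sA fun j => (nT (j, a)).smul (h.gb.c i l j)).smul (h.gb.o a k i l))).csmul (1 / 2))).sub
      ((ND.sum h.sA fun a => .sum h.sA fun i => .sum h.sA fun l =>
        (n2 a i l).smul (h.gb.o a k i l)).csmul (1 / 6))).congr fun n x =>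
      form_div (h.hB n) _ (fun s => sT s n x) (mT n) (fun y s => Wz78.a2_fix
        (T := fun i l => fT G θ n y (i, l)) (aT · · n y) (fun i l => by
          have := t.hor i l n y
          simp only [b, gfb, (h.hG n).P] at this
          simp only [PiLp.sub_apply, smul_sub, sum_sub_distrib, this, Wz78.Fg_proj (h.hG n) (h.cn n)]) s) k
  have cv : ∀ a a' s n x, curv I (b.e n) (b.c n) (WA c n) a a' x (fT G θ n x s) =
      adc (opL (gF' G c (a, a') n x)) (fT G θ n x s) := fun a a' s n x =>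
    Wz78.curv_adW_g (h.hB n) (h.hG n) (h.ok n) (h.cn n) a a' (mT n x s)
  have bθ : ∀ R, ∃ K, 0 ≤ K ∧ ∀ᶠ q in b.F, ∀ μ, 1 ≤ μ → b.H L₂ 3 μ 0 q.1 q.2 ≤ R →
      ‖θ q.1 q.2‖ ^ 2 ≤ K * μ ^ 6 := fun R => by
    choose K K0 hK using fun s => (wθ s).bd [] 0 (√R) (by simp [sC])
    refine ⟨∑ s, K s ^ 2, by positivity, (eventually_all.2 hK).mono fun q hq μ m1 m2 => ?_⟩
    rw [PiLp.norm_sq_eq_of_L2, sum_mul]
    refine sum_le_sum fun s _ => (pow_le_pow_left₀ (norm_nonneg _) (hq s μ m1 (Real.sqrt_le_sqrt m2)) 2).trans_eq ?_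
    simp only [sC, bt, List.length_nil]; norm_num; ring
  have b1 : ∀ R, ∃ K, 0 ≤ K ∧ ∀ᶠ q in b.F, ∀ μ, 1 ≤ μ → b.H L₂ 3 μ 0 q.1 q.2 ≤ R →
      ‖fT G θ q.1 q.2‖ ^ 2 ≤ K * (b.en q.1 q.2 + μ ^ 6) ∧
        b.en q.1 q.2 ≤ K * (‖fT G θ q.1 q.2‖ ^ 2 + μ ^ 6) := fun R =>
    let ⟨K, K0, hK⟩ := bθ R
    ⟨2 + 2 * K, by positivity, hK.mono fun q hq μ m1 m2 => by
      have a1 := Wz78.nsq_sub ((c _).m.Fg (G _).F (c _).W q.2) (θ q.1 q.2)
      have a2 := Wz78.nsq_sub (fT G θ q.1 q.2) (-θ q.1 q.2)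
      rw [sub_neg_eq_add, sub_add_cancel, norm_neg] at a2
      have a3 := hq μ m1 m2
      have a4 : 0 ≤ μ ^ 6 := by positivity
      change _ ≤ _ * (‖_‖ ^ 2 + _) ∧ ‖_‖ ^ 2 ≤ _
      constructor <;> nlinarith [mul_nonneg K0 (sq_nonneg ‖fT G θ q.1 q.2‖),
        mul_nonneg K0 (sq_nonneg ‖(c _).m.Fg (G _).F (c _).W q.2‖)]⟩
  refine ⟨_, L₂, ⟨h.gb.c, ?_⟩, ?_, kp, sb⟩
  · rintro ((⟨i, l⟩ | a) | j)
    swap; · exact sb.o3 (h.ok_Φ hL hΦ kD a).o3
    swap; · exact sb.o3 (ok j).o3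
    refine ⟨h.sA, sT _, h.kA, sb.crv (h.crv_A hL (sT _) fun n x => mT n x _),
      ⟨fun k => (sD (k + 1)).2, le_rfl, le_rfl, ?_⟩, .inl ⟨rfl, .inl fun R => ?_⟩⟩
    · have a3 : Cn (sU 4) (sU 4) fun j => sD (j + 1) := fun i j => by
        simp only [sU, sD, Prod.mk_add_mk, Prod.mk_le_mk]; omega
      have m5 : Cn 0 (fun k => sD (k + 1)) fun k => sD (k + 1) := cn0 fun _ _ h => sD_mono (by omega)
      have cw := fun a a' k => (h.gb.c a a' k).wt L₂ 3 0
      refine (((((((nv l).w.D i).sub ((nv i).w.D l)).add (Wt.sum h.sA fun a =>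
        ((h.wt_adc (wF (a, i))).app h.sA (wT (a, l)) a3).sub
          ((h.wt_adc (wF (a, l))).app h.sA (wT (a, i)) a3))).add
        (Wt.sum h.sA fun a => Wt.sum h.sA fun j => ((cw a i j).smul ((nT (a, l)).w.D j) m5).sub
          ((cw a l j).smul ((nT (a, i)).w.D j) m5))).add
        (Wt.sum h.sA fun a => (ND.sum h.sA fun j => (((nT (j, a)).smul (h.gb.c i l j)).add
          ((nT (j, i)).smul (h.gb.c l a j))).add ((nT (j, l)).smul (h.gb.c a i j))).w.D a)).add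
        (Wt.sum h.sA fun a => (n2 a i l).w.D a)).congr fun n x => ?_
      simp only [← cv]
      exact (b.frm n).lap2' (h.sA n · x) (θ := fun i l y => fT G θ n y (i, l))
        (fun i l => sT (i, l) n x) (aT · · n) i l
    · obtain ⟨K, K0, hK⟩ := b1 R
      refine ⟨K + 1, by positivity, hK.mono fun q hq μ m1 m2 => le_trans (pow_le_pow_left₀ (norm_nonneg _)
        (PiLp.norm_apply_le (fT G θ q.1 q.2) (i, l)) 2) ((hq μ m1 m2).1.trans ?_)⟩
      exact mul_le_mul_of_nonneg_right (by linarith) (add_nonneg (sq_nonneg _) (by positivity))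
  refine Wz78.kat_of (θ := fun i l n x => fT G θ n x (i, l)) h.gb.c h.kA (fun i l => wT (i, l)) aT
    (fun _ _ => sq_nonneg _) (h := fun n x => ‖fT G θ n x‖ ^ 2)
    (fun n x => by rw [PiLp.norm_sq_eq_of_L2, Fintype.sum_prod_type]) (fun R => ?_) (fun R => ?_)
    (fun a i l => (n2 a i l).nu) (fun m => (nv m).nu) fun R a a' i l => ?_ <;>
    obtain ⟨K, K0, hK⟩ := b1 R
  · exact ⟨K, K0, hK.mono fun q hq μ hp => (abs_of_nonneg (sq_nonneg _)).trans_le
      (hq μ hp.1 ((b.H_mono ..).trans hp.2)).1⟩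
  · exact ⟨K, K0, hK.mono fun q hq μ hp => (abs_of_nonneg (sq_nonneg _)).trans_le
      (hq μ hp.1 ((b.H_mono ..).trans hp.2)).2⟩
  refine ⟨K + 1, by positivity, hK.mono fun q hq μ hp => ?_⟩
  have a1 := (hq μ hp.1 ((b.H_mono ..).trans hp.2)).2
  have a2 := mul_le_mul (PiLp.norm_apply_le ((c _).m.Fg (G _).F (c _).W q.2) (a, a'))
    (PiLp.norm_apply_le (fT G θ q.1 q.2) (i, l)) (norm_nonneg _) (norm_nonneg _)
  have a4 : 0 ≤ μ ^ 6 := by positivity
  change ‖_‖ ^ 2 ≤ _ at a1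
  refine (congrArg norm (cv ..)).trans_le ((Wz78.norm_adc _ _).trans ?_)
  nlinarith [sq_nonneg (‖(c _).m.Fg (G _).F (c _).W q.2‖ - ‖fT G θ q.1 q.2‖)]

end Crest.Agent.X212.Th31
end
end

-- ▼ part X212/Cmp73/Core

/-!
# X212 / COMP (helper73), part 16: the core of COMP from the gauge theorem
-/

set_option autoImplicit false
set_option linter.unusedSectionVars false
open Set Filter Topology Function MeasureTheory
open scoped ContDiff Manifold InnerProductSpace NNReal ENNReal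

noncomputable section
namespace Crest.Agent.X212.Cmp73

open An Eqv71 Pat85
open Wz78 (nab lap dir SA)

theorem norm_le_one {V W : Type} [NormedAddCommGroup V] [InnerProductSpace ℝ V] [NormedAddCommGroup W]
    [InnerProductSpace ℝ W] {u : V →L[ℝ] W} {p : V →L[ℝ] V} (h1 : ∀ v w, ⟪p v, w⟫_ℝ = ⟪v, p w⟫_ℝ)
    (h2 : p * p = p) (h : ∀ v, ⟪u v, u v⟫_ℝ = ⟪v, p v⟫_ℝ) : ‖u‖ ≤ 1 :=
  u.opNorm_le_bound zero_le_one fun v => (abs_le_of_sq_le_sq' (by
    rw [one_mul, ← real_inner_self_eq_norm_sq, h]; exact (Mp86.proj_le h1 h2 v).2.1) (by positivity)).2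

variable {E : Type} [NormedAddCommGroup E] [NormedSpace ℝ E] [FiniteDimensional ℝ E]
  [MeasurableSpace E] [BorelSpace E]
  {HM : Type} [TopologicalSpace HM] {I : ModelWithCorners ℝ E HM} [I.Boundaryless]
  {E₀ : Type} [NormedAddCommGroup E₀] [NormedSpace ℝ E₀] [FiniteDimensional ℝ E₀]
  [MeasurableSpace E₀] [BorelSpace E₀]
  {H₀ : Type} [TopologicalSpace H₀] {I₀ : ModelWithCorners ℝ E₀ H₀} [I₀.Boundaryless]
  {M : Type} [TopologicalSpace M] [ChartedSpace H₀ M] [IsManifold I₀ ∞ M] [MeasurableSpace M]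
  [T2Space M] [BorelSpace M] [SecondCountableTopology M]
  {ι lam : Type} [Fintype ι] [Fintype lam] {α : Type}
  {X : α → Type} [∀ n, TopologicalSpace (X n)] [∀ n, ChartedSpace HM (X n)]
  [∀ n, IsManifold I ∞ (X n)] [∀ n, MeasurableSpace (X n)] [∀ n, T2Space (X n)]
  [∀ n, BorelSpace (X n)] [∀ n, SecondCountableTopology (X n)] {r m : ℕ}
  {N : Type} [NormedAddCommGroup N] [NormedSpace ℝ N]

namespace Gs
variable {g : Gs I I₀ M ι lam X} {c : ∀ n, Cfg (X n) ι lam r}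

variable (g c) in
/-- LEAF GA: bounded jets off `S` give a limit -/
def Ga : Prop := ∀ S : Set M, (∀ n, (c n).Adm (g.B n) (g.G n)) → g.P ⊆ S →
  (∀ K, IsCompact K → (S ∩ K).Finite) → (∀ x s, g.CB c S x (WA c) (gF' g.G c s)) →
  (∀ x, g.CB c S x (WV c) fun n => (c n).Φ) → ∃ c' u, g.Lim c c' S u

variable (hg : g.OK)
include hg

theorem OK.vc : VC I₀ (g.l : Filter α) (fun n => (g.H n).F.e) g.G₀.F.e :=
  ⟨fun a => (hg.e a).mb, fun a => (hg.e a).pt, g.G₀.F.sm, Sob92.span_coef g.G₀.F.toPre⟩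

section tr
variable {c' : Cfg M ι lam r} {S : Set M} {u : ∀ n, M → CL (c n).m.V c'.m.V} (h : g.Lim c c' S u)
include h

theorem Lim.tr {V : α → Type} [∀ n, NormedAddCommGroup (V n)] [∀ n, NormedSpace ℝ (V n)]
    {V' : Type} [NormedAddCommGroup V'] [NormedSpace ℝ V'] [FiniteDimensional ℝ V']
    {T : ∀ n, M → V n →L[ℝ] V'} {A : ∀ n, ι → X n → V n →L[ℝ] V n} {A₁ : α → ι → M → V' →L[ℝ] V'}
    {A' : ι → M → V' →L[ℝ] V'} (sA : ∀ a, Sm I₀ (A' a)) (hA : ∀ a, Cv I₀ g.l Sᶜ (fun n => A₁ n a) (A' a))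
    (hT : ∀ x ∉ S, ∀ᶠ q in (g.l : Filter α) ×ˢ 𝓝 x, (SA I₀ (T q.1) q.2 ∧ ‖T q.1 q.2‖ ≤ 1) ∧
      Itw I₀ (g.H q.1).F.e (fun a y => A q.1 a (g.ψ q.1 y)) (A₁ q.1) (T q.1) q.2)
    {s : ∀ n, X n → V n} (hs : ∀ x, g.CB c S x A s) :
    ∃ s', Sm I₀ s' ∧ Cv I₀ g.l Sᶜ (fun n x => T n x (s n (g.ψ n x))) s' := by
  obtain ⟨c1, c2⟩ := Shi84.closed_S (I₀ := I₀) h.fin
  refine (ext_S hg.vc (by rw [hg.h4]; omega) c1 c2 (fun a => ⟨fun x _ => sA a x, hA a⟩)
    fun k x => ?_).imp fun _ a => ⟨fun x => a.sm x trivial, a.cv⟩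
  have a := ev_iF_of (x := x) hT
  obtain ⟨h1, h2, h3⟩ := Fb.cb_iff.1 (hs x)
  refine DB.map ob_iF ⟨a.mono fun _ hq => hq.1.1, 1, a.mono fun _ hq => hq.1.2⟩
    (a.mono fun q hq i => by rw [← add_sub_assoc, hq.2 i, sub_self])
    (DB.of_rel ob_iF (fun n => (Wz78.frm (g.G n).F).se) h1
      ((ev_iF_of fun y hy => hg.src y (h.sub hy)).mono fun q hq =>
        ⟨((hg.rel _).ld _ hq).contMDiffAt, fun i => (hg.rel _).e i _ hq⟩) h2 fun v _ => h3 v)

variable (ha : ∀ n, (c n).Adm (g.B n) (g.G n))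
include ha

theorem Lim.trV {s : ∀ n, X n → (c n).m.V} (hs : ∀ x, g.CB c S x (WV c) s) : ∃ s', g.LV c c' S u s s' :=
  (h.tr hg (fun a => h.adm.conn.cc.sm a) h.cW (fun _ hx => (h.nr hg ha hx).mono fun q hq =>
    ⟨⟨hq.su, norm_le_one ((ha _).ok.psym _) ((ha _).ok.pidem _) fun _ => hq.me.inner ..⟩, hq.itw⟩)
    hs).imp fun _ a => ⟨a.1, a.2⟩

omit hg h in
theorem Nr.cj_le {n : α} {y : M} (hq : g.Nr c c' u n y) : ‖cj (u n y)‖ ≤ 1 :=
  norm_le_one (p := cj ((c n).m.p (g.ψ n y)))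
    (fun v w => by rw [inner_cj, trn_of_sym ((ha n).ok.psym _)])
    (ContinuousLinearMap.ext fun v => by
      rw [mul_apply_eq_comp, cj_cj]; exact congrArg (cj · v) ((ha n).ok.pidem _))
    fun v => by rw [inner_cj, cj_cj, hq.me.uu]

theorem Lim.trA {s : ∀ n, X n → (c n).m.A} (hs : ∀ x, g.CB c S x (WA c) s) : ∃ s', g.LA c c' S u s s' := by
  have k1 : ∀ a, Cv I₀ g.l Sᶜ (fun n x => adT (g.tW c c' u n a x)) (c'.m.adW c'.W a) := fun a =>
    ((h.cW a).clm adT).congr (fun _ _ => .of_forall fun _ => rfl)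
      fun x _ => (adT_skw (h.adm.conn.sk a x)).symm
  obtain ⟨s', h1, h2⟩ := h.tr hg (V := fun n => (c n).m.A) (V' := c'.m.A) (T := fun n x => cj (u n x))
    (A := WA c) (A₁ := fun n a x => adT (g.tW c c' u n a x)) (A' := c'.m.adW c'.W)
    (fun a => (con_adW h.adm.conn).sm a) k1
    (fun _ hx => (h.nr hg ha hx).mono fun q hq => ⟨⟨sa_cj hq.su, hq.cj_le ha⟩,
      itw_cj hq.itw hq.su fun a => (ha _).conn.sk a _⟩) hs
  exact ⟨s', h1, h2⟩

end tr

theorem OK.gx (ha : ∀ n, (c n).Adm (g.B n) (g.G n)) {U : Set M} (hU : U ⊆ g.Pᶜ) (x : M) :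
    Gx g.B g.G c (g.F U x) :=
  ⟨hg.B, hg.G, fun n => (ha n).ok, fun n => (ha n).conn, fun n => (ha n).sm, fun n => (ha n).pos,
    Shi84.gb hg hU⟩

namespace Hyp
variable (h : g.Hyp c)
include h

theorem cons (x : M) {p : Sy ι X → Prop} (hp : Ev (g.fb c (g.F g.Pᶜ x)) (g.bs c) p) :
    ∃ L₁ L₂, Cons (g.fb c (g.F g.Pᶜ x)) L₂ ∧ Kat (g.fb c (g.F g.Pᶜ x)) L₂ ∧ p L₁ ∧
      Th31.Sb (g.fb c (g.F g.Pᶜ x)) L₁ L₂ :=
  let ⟨_, h1, h2, h3⟩ := h.C x
  Th31.cons_th (hg.gx h.adm subset_rfl x) (h.Φ x) (h.D x) h1 h2 h3 hp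

theorem fin (K : Set M) (hK : IsCompact K) : (g.S c ∩ K).Finite :=
  Shi84.an_fin' hg (fun x => let ⟨_, L, a, b, _⟩ := h.cons hg x (p := fun _ => True) (.of fun _ _ => trivial)
    ⟨L, a, b⟩) h.en K hK

/-- controlled sections have bounded jets off the exceptional set -/
theorem cb {V : α → Type} [∀ n, NormedAddCommGroup (V n)] [∀ n, NormedSpace ℝ (V n)]
    {A : ∀ n, ι → X n → V n →L[ℝ] V n} {s : ∀ n, X n → V n} {σ : ℕ → ℕ → ℕ × ℕ} {x : M}
    (hs : PF (g.fb c (g.F g.Pᶜ x)) (g.bs c) σ A s) : g.CB c (g.S c) x A s :=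
  let ⟨_, _, h1, h2, h3, h4⟩ := h.cons hg x hs.ev
  Wt.cb ((h4.w (h3 3 le_rfl (by omega))).up (C' := (g.fb c (g.F (g.S c)ᶜ x)).cx _ 3) rfl
    (map_mono (nF_mono sub_S)) fun _ _ _ => le_rfl) (Shi84.an_jb hg h1 h2 (h.en x))

theorem cbF (x : M) (s : ι × ι) : g.CB c (g.S c) x (WA c) (gF' g.G c s) :=
  h.cb hg (σ := fun _ => sU 4) (pf_iff.2 (.of fun _ hL _ _ _ => (hg.gx h.adm subset_rfl x).wt_F hL s))

theorem cbΦ (x : M) : g.CB c (g.S c) x (WV c) fun n => (c n).Φ :=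
  h.cb hg (σ := sW) (pf_iff.2 (.of fun _ hL _ _ _ => (hg.gx h.adm subset_rfl x).wt_Φ hL (h.Φ x)))

end Hyp

/-- **the core of COMP** -/
theorem OK.core (ga : g.Ga c) : g.Core c :=
  ⟨fun _ => Shi84.gb hg subset_rfl,
    fun h => ga _ h.adm subset_union_left (h.fin hg) (h.cbF hg) (h.cbΦ hg),
    fun h _ _ l _ _ hs => l.trV hg h.adm fun x => h.cb hg (hs x),
    fun h _ _ l _ _ hs => l.trA hg h.adm fun x => h.cb hg (hs x)⟩

theorem OK.bk (ga : g.Ga c) (ht : ∃ C, g.G₀.F.Tame C) (ha : ∀ n, (c n).Adm (g.B n) (g.G n))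
    (hΦ : g.UB fun n => (c n).Φ) : g.Bk c :=
  ⟨hg, hg.core ga, Shi84.int hg, Shi84.fat hg, Shi84.unq ht.choose_spec, ht, ha, hΦ⟩

/-! ### coefficients -/

/-- fields which come from a family converging on all of `M` -/
theorem OK.fc {f : ∀ n, X n → N} {f₁ : α → M → N} {f' : M → N} (sm : ∀ n, Sm I (f n)) (bd : g.UB f)
    (sm' : Sm I₀ f') (e : ∀ n, ∀ y ∈ (g.ψ n).source, f n (g.ψ n y) = f₁ n y)
    (cv : Cv I₀ g.l univ f₁ f') : g.FC c f f' :=
  ⟨fun x => Shi84.cs_of_mb hg subset_rfl sm e fun k => cv.mb k x trivial, bd, sm',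
    (cv.mono le_rfl (subset_univ _)).congr (fun y hy => (hg.src y hy).mono fun _ hq => e _ _ hq)
      fun _ _ => rfl⟩

/-- functions which are a fixed smooth function over the sources -/
theorem OK.fd {f : ∀ n, X n → ℝ} {f' : M → ℝ} (sm : ∀ n, Sm I (f n)) (sm' : Sm I₀ f')
    (bd : ∀ a, g.UB fun n => (g.G n).F.D a (f n))
    (e : ∀ n, ∀ y ∈ (g.ψ n).source, f n (g.ψ n y) = f' y) : g.FD c f f' := fun a =>
  hg.fc (fun n => (g.G n).F.sm_D (sm n) a) (bd a) (g.G₀.F.sm_D sm' a) (fun n _ hy =>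
    ((hg.rel n).D hy a (((g.ψ n).open_source.eventually_mem hy).mono fun z hz => (e n z hz).symm)).symm)
    (hg.cv_D isOpen_univ (Cv.fixed' sm') a)

end Gs

end Crest.Agent.X212.Cmp73
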