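import Crest.Agent.X212.Cmp73.Zq
import Crest.Agent.X212.Sw.Core_Mg
import Crest.Agent.X212.Cqn41.Fin
import Crest.Agent.X212.Nfo63.Main

/-!
# X212 / COMP (helper73), part 26: `J.Comp` with the finished leaves plugged in
-/

set_option autoImplicit false
noncomputable section
namespace Crest.Agent.X212.Cmp73

open An An.Job M

variable {Wi : Type} {X : Mf 4} {A κ lam : Type} [Fintype A] [Fintype κ] [Fintype lam]
  [DecidableEq lam] {M : Mark X A κ} {W : World M} {N : ML M lam}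
  {Λ : Lns W N} {A' h : Type} [Fintype A'] [DecidableEq A'] [Fintype h] {r n : ℕ}
  {J : Job Wi Λ A' h r n} {Adm : (Wi →₀ ℝ) → Prop}

theorem comp' (hJ : J.OK) (hW : W.Nrm) (hΛ : Λ.Nrm) (kt : Loc66.KT (Option κ) (lam ⊕ lam))
    (hp : PINCH J Adm) (hn : NULL J Adm) (cut : CUT J Adm) (ap : APJ J Adm)
    (nk : NECK J Adm) : J.Comp Adm :=
  have s : SCN J Adm := X212.M.scn hJ hW hΛ
  have hc := Sw.Core.core Adm hJ
  comp hJ s (X212.M.jqt hJ (Nfo63.tms hJ) (Cqn41.nqj hJ)) (Nfo63.nfo hJ (Pat85.dj hJ) _)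
    (fun _ _ _ _ _ _ h => h.cz kt) (Shi84.bfj hJ) (Shi84.jlj hJ) nk (Sm25.levJ hJ kt hc hp hn)
    (Sm25.kapJ hJ kt hc s) cut (Shi84.ulj hJ s) (Pat85.wl hJ ap)

/-- the text of `Kof81.CmpL J` -/
theorem cmpL (hJ : J.OK) (hW : W.Nrm) (hΛ : Λ.Nrm) (kt : Loc66.KT (Option κ) (lam ⊕ lam))
    (hp : ∀ Adm, PINCH J Adm) (hn : ∀ Adm, NULL J Adm) (cut : ∀ Adm, CUT J Adm) :
    (∀ a α l q₀ (F : NF (Cyf70.IC (J.xs a).Y.I) (fun _ : α => (J.xs a).Y.M × ℝ) (J.xs a).D 0 0),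
      F.OK (J.xs a).N l q₀ → F.CZ (J.xs a).N l q₀) ∧
    (An.Sml (APJ J) → An.Sml (NECK J) → An.Sml J.Comp) :=
  ⟨fun _ _ _ _ _ h => h.cz kt, fun a b => (a.and b).mono fun _ k =>
    comp' hJ hW hΛ kt (hp _) (hn _) (cut _) k.1 k.2⟩

end Crest.Agent.X212.Cmp73
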