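import Crest.Agent.X212.Cmp73.Ine
import Crest.Agent.X212.Wz78.Kat
import Crest.Agent.X212.Cmp73.St
import Crest.Agent.X212.Cmp73.Cov
import Crest.Agent.X212.Pj41.Cm
import Crest.Agent.X212.Wz78.Par
import Crest.Agent.X212.Eqv71.Alg

-- ▼ part X212/Cmp73/Pfc
section

/-!
# X212 / COMP (helper73), part 9: the calculus of controlled sections
-/

set_option autoImplicit false
set_option linter.unusedSectionVars false
open Set Filter Topology Function MeasureTheory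
open scoped ContDiff Manifold InnerProductSpace NNReal

noncomputable section
namespace Crest.Agent.X212.Cmp73

open An (Sm)
open Wz78 (nab curv lap SA Frm)
open Sob92 (dv)

variable {E : Type} [NormedAddCommGroup E] [NormedSpace ℝ E] {HM : Type} [TopologicalSpace HM]
  {I : ModelWithCorners ℝ E HM} {ι : Type} [Fintype ι]
  {α : Type} {X : α → Type} [∀ n, TopologicalSpace (X n)] [∀ n, ChartedSpace HM (X n)]
  [∀ n, IsManifold I ∞ (X n)]
  {V W U : α → Type} [∀ n, NormedAddCommGroup (V n)] [∀ n, NormedSpace ℝ (V n)]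
  [∀ n, NormedAddCommGroup (W n)] [∀ n, NormedSpace ℝ (W n)]
  [∀ n, NormedAddCommGroup (U n)] [∀ n, NormedSpace ℝ (U n)]

/-- right hand sides of resolvent equations -/
def sL (dw : ℕ) (k : ℕ) : ℕ × ℕ := (k, max (dw + 2 + 2 * k) (dw * (k + 1)))

section cls
variable {dw : ℕ}

theorem sP_mono : Monotone (sP dw) := fun _ _ h =>
  ⟨Nat.sub_le_sub_right h 1, Nat.mul_le_mul_left _ h⟩
theorem sU_mono (d : ℕ) : Monotone (sU d) := fun _ _ h => ⟨h, by simp only [sU]; omega⟩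
theorem sL_mono : Monotone (sL dw) := fun _ _ h =>
  ⟨h, max_le_max (by omega) (Nat.mul_le_mul_left _ (by omega))⟩
theorem sW_sP (h : 2 ≤ dw) : ∀ k, sW dw k ≤ sP dw k
  | 0 => zero_le
  | k + 1 => ⟨le_rfl, by simp only [sW, sP]; nlinarith⟩
theorem sP_succ (k : ℕ) : sP dw (k + 1) ≤ sL dw k := ⟨le_rfl, le_max_right _ _⟩
theorem sP_sL (k : ℕ) : sP dw k ≤ sL dw k := (sP_mono k.le_succ).trans (sP_succ k)
theorem sU_sL {d : ℕ} (h : d ≤ dw + 2) (k : ℕ) : sU d k ≤ sL dw k :=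
  ⟨le_rfl, le_max_of_le_left (by simp only [sU]; omega)⟩
theorem cn_PP (j k : ℕ) : Cn (fun i => sP dw (i + j)) (fun i => sP dw (i + k))
    fun i => sP dw (i + (j + k)) := fun a c =>
  ⟨by simp only [sP, Prod.fst_add]; omega, by simp only [sP, Prod.snd_add]; nlinarith⟩
theorem cn_P : Cn (sP dw) (sP dw) (sP dw) := cn_PP 0 0
theorem cn_UW (h : 2 ≤ dw) : Cn (sU 4) (sW dw) (sL dw) := fun i j => match j with
  | 0 => by simpa [sW] using sU_sL (by omega) i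
  | j + 1 => ⟨by simp only [sU, sW, sL, Prod.fst_add]; omega,
    le_max_of_le_left (by simp only [sU, sW, Prod.snd_add]; omega)⟩
theorem Cn.symm {σ σ' τ : ℕ → ℕ × ℕ} (h : Cn σ σ' τ) : Cn σ' σ τ := fun i j => by
  rw [add_comm, add_comm i]; exact h j i
theorem cn0 {σ : ℕ → ℕ × ℕ} (h : Monotone σ) : Cn 0 σ σ := Wt.cn_zero σ h
theorem cn00 : Cn 0 0 0 := cn0 monotone_const

end cls

namespace Wt
variable {C : Ctx I ι X} {A : ∀ n, ι → X n → V n →L[ℝ] V n} {B : ∀ n, ι → X n → W n →L[ℝ] W n}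
  {σ σ' τ : ℕ → ℕ × ℕ} {f g : ∀ n, X n → V n} {dw : ℕ}

/-- bounded constants -/
theorem cst {r : α → ℝ} {K : ℝ} (h : ∀ᶠ q in C.F, |r q.1| ≤ K) :
    Wt C (tv X ι fun _ => ℝ) σ fun n _ => r n :=
  par (fun _ _ => contMDiff_const) (fun _ => contMDiff_const) h fun n a x => by simp [nab, dv_cst]

theorem mul {φ ψ : ∀ n, X n → ℝ} (h : Wt C (tv X ι fun _ => ℝ) σ φ)
    (h' : Wt C (tv X ι fun _ => ℝ) σ' ψ) (hc : Cn σ σ' τ) :
    Wt C (tv X ι fun _ => ℝ) τ fun n x => φ n x * ψ n x := h.smul h' hc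

theorem dvT (h : Wt C (tv X ι V) σ f) (a : ι) :
    Wt C (tv X ι V) (fun k => σ (k + 1)) fun n => dv I (C.e n a) (f n) :=
  (h.D a).congr fun _ _ => (add_zero _).symm

theorem b0_sum {κ : Type} [Fintype κ] {s : ℕ × ℕ} (v : List ι) {w : κ → ∀ n, X n → V n}
    (sA : ∀ n a, Sm I (A n a)) (sm : ∀ i n, Sm I (w i n))
    (h : ∀ i, B0 C.toJt s fun q => ‖Cmp73.Dw I (C.e q.1) (A q.1) v (w i q.1) q.2‖) :
    B0 C.toJt s fun q => ‖Cmp73.Dw I (C.e q.1) (A q.1) v (fun x => ∑ i, w i q.1 x) q.2‖ := by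
  classical
  have : ∀ t : Finset κ, B0 C.toJt s
      fun q => ‖Cmp73.Dw I (C.e q.1) (A q.1) v (fun x => ∑ i ∈ t, w i q.1 x) q.2‖ := fun t => by
    induction t using Finset.induction_on with
    | empty => exact B0.bdd (C := 0) (.of_forall fun q => by simp [Dw_zero])
    | insert a t ha ih =>
      refine (h a).add ih fun q => ?_
      simp only [Finset.sum_insert ha]
      rw [Dw_add (C.sm _) (sA _) v (sm a _) fun x => SA.sum _ fun i _ => sm i _ x]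
      exact norm_add_le _ _
  exact this _

/-- bounded families whose derivatives are combinations of the family -/
theorem lin {κ κ' : Type} [Fintype κ'] {T : κ → ∀ n, X n → V n} (sA : ∀ n a, Sm I (A n a))
    (sm : ∀ i n, Sm I (T i n)) {K : ℝ} (h0 : ∀ i n x, ‖T i n x‖ ≤ K)
    {γ : ι → κ → κ' → ∀ n, X n → ℝ} {j : κ → κ' → κ}
    (hγ : ∀ a i k, Wt C (tv X ι fun _ => ℝ) 0 (γ a i k))
    (h : ∀ i n a x, nab I (C.e n) (A n) a (T i n) x = ∑ k, γ a i k n x • T (j i k) n x) (i : κ) :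
    Wt C A 0 (T i) := by
  have key : ∀ (v : List ι) (i : κ) (φ : ∀ n, X n → ℝ), Wt C (tv X ι fun _ => ℝ) 0 φ → B0 C.toJt 0
      fun q => ‖Cmp73.Dw I (C.e q.1) (A q.1) v (fun x => φ q.1 x • T i q.1 x) q.2‖ := by
    intro v
    induction v with
    | nil =>
      exact fun i φ hφ => (hφ.bd []).mul (B0.bdd (s := 0) (.of_forall fun q => h0 i q.1 q.2))
        (by simp) (fun _ => norm_nonneg _) fun q => (norm_smul _ _).le
    | cons a v ih =>
      intro i φ hφ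
      have h1 := fun k => hφ.mul (hγ a i k) cn00
      have h2 := hφ.dvT a
      have s1 : ∀ k n, Sm I fun x => (φ n x * γ a i k n x) • T (j i k) n x :=
        fun k n => (h1 k).sm n |>.smul (sm (j i k) n)
      have s2 : ∀ n, Sm I fun x => dv I (C.e n a) (φ n) x • T i n x := fun n => (h2.sm n).smul (sm i n)
      refine (ih i _ h2).add (b0_sum v sA s1 fun k => ih (j i k) _ (h1 k)) fun q => ?_
      rw [Cmp73.Dw, show nab I (C.e q.1) (A q.1) a (fun x => φ q.1 x • T i q.1 x) = fun x =>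
        dv I (C.e q.1 a) (φ q.1) x • T i q.1 x + ∑ k, (φ q.1 x * γ a i k q.1 x) • T (j i k) q.1 x from
        funext fun x => by
          rw [Wz78.nab_smul a (hφ.sm _ x) (sm i _ x), h, Finset.smul_sum]; simp only [mul_smul],
        Dw_add (C.sm _) (sA _) v (s2 _) fun x => SA.sum _ fun k _ => s1 k _ x]
      exact norm_add_le _ _
  exact ⟨sA, sm i, fun v => by
    simpa using key v i (fun _ _ => 1) (cst (K := 1) (by simp))⟩

/-- a bounded connection form does not change the class of bounded sections -/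
theorem conn (hA : ∀ a, Wt C (tv X ι fun n => V n →L[ℝ] V n) 0 fun n => A n a)
    (hf : Wt C (tv X ι V) 0 f) : Wt C A 0 f := by
  refine ⟨fun n a => (hA a).sm n, hf.sm, fun v => ?_⟩
  induction v generalizing f with
  | nil => exact hf.bd []
  | cons a v ih =>
    refine ih (f := fun n => nab I (C.e n) (A n) a (f n)) ((hf.dvT a).add ?_)
    exact bil (β := fun n => ContinuousLinearMap.id ℝ (V n →L[ℝ] V n)) (K := 1) hf.sA
      (fun _ => ContinuousLinearMap.norm_id_le) (fun n a x s t => by simp) (hA a) hf cn00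

/-- smooth functions of bounded sections -/
theorem nem {t : ∀ n, X n → ℝ} (ht : Wt C (tv X ι fun _ => ℝ) (sP dw) t) {T : Set ℝ}
    (hT : IsClosed T) (htT : ∀ n x, t n x ∈ T) {φ : ℝ → ℝ} (hφ : ∀ s ∈ T, ContDiffAt ℝ ∞ φ s)
    (hg : Wt C A (sP dw) g) : Wt C A (sP dw) fun n x => φ (t n x) • g n x := by
  have sφ : ∀ {φ : ℝ → ℝ}, (∀ s ∈ T, ContDiffAt ℝ ∞ φ s) → ∀ n, Sm I fun x => φ (t n x) :=
    fun hφ n x => (hφ _ (htT n x)).comp_contMDiffAt (ht.sm n x)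
  have key : ∀ (v : List ι) (φ : ℝ → ℝ), (∀ s ∈ T, ContDiffAt ℝ ∞ φ s) → ∀ (j : ℕ)
      (g : ∀ n, X n → V n), Wt C A (fun k => sP dw (k + j)) g → B0 C.toJt (sP dw (v.length + j))
      fun q => ‖Cmp73.Dw I (C.e q.1) (A q.1) v (fun x => φ (t q.1 x) • g q.1 x) q.2‖ := by
    intro v
    induction v with
    | nil =>
      intro φ hφ j g hg
      refine (B0.post (g' := fun q => ‖φ (t q.1 q.2)‖) (ht.bd []) fun K => ?_).mul (hg.bd [])
        (by simp) (fun _ => norm_nonneg _) fun q => (norm_smul _ _).le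
      obtain ⟨K', hK⟩ := ((isCompact_closedBall (0 : ℝ) K).inter_right hT).exists_bound_of_continuousOn
        (f := φ) fun s hs => (hφ s hs.2).continuousAt.continuousWithinAt
      exact ⟨K', fun q hq => hK _ ⟨mem_closedBall_zero_iff.2 hq, htT _ _⟩⟩
    | cons a v ih =>
      intro φ hφ j g hg
      have hd : ∀ s ∈ T, ContDiffAt ℝ ∞ (deriv φ) s := fun s hs =>
        ((hφ s hs).fderiv_right (m := ∞) (by simp)).clm_apply contDiffAt_const
      have h1 := (ht.dvT a).smul hg (cn_PP 1 j)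
      have h2 := hg.D a
      have e1 : (a :: v).length + j = v.length + (1 + j) := by simp; omega
      have s1 : ∀ n, Sm I fun x => deriv φ (t n x) • dv I (C.e n a) (t n) x • g n x :=
        fun n => (sφ hd n).smul (h1.sm n)
      have s2 : ∀ n, Sm I fun x => φ (t n x) • nab I (C.e n) (A n) a (g n) x :=
        fun n => (sφ hφ n).smul (h2.sm n)
      rw [e1]
      refine (ih _ hd _ _ h1).add (ih _ hφ (1 + j) _ (h2.mono fun k => by
        rw [show k + 1 + j = k + (1 + j) by omega])) fun q => ?_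
      rw [Cmp73.Dw, show nab I (C.e q.1) (A q.1) a (fun x => φ (t q.1 x) • g q.1 x) = fun x =>
        deriv φ (t q.1 x) • dv I (C.e q.1 a) (t q.1) x • g q.1 x +
          φ (t q.1 x) • nab I (C.e q.1) (A q.1) a (g q.1) x from funext fun x => by
          rw [Wz78.nab_smul a (sφ hφ _ x) (hg.sm _ x), smul_smul]
          congr 2
          exact (Sob92.dv_comp ((ht.sm _ x).mdifferentiableAt (by simp))
            ((hφ _ (htT _ x)).differentiableAt (by simp)).hasDerivAt.hasFDerivAt).trans (by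
              simp [mul_comm]),
        Dw_add (C.sm _) (hg.sA _) v (s1 _) (s2 _)]
      exact norm_add_le _ _
  exact ⟨hg.sA, fun n => (sφ hφ n).smul (hg.sm n), fun v => key v φ hφ 0 g hg⟩

end Wt

/-- inner products -/
theorem Wt.inner {V : α → Type} [∀ n, NormedAddCommGroup (V n)] [∀ n, InnerProductSpace ℝ (V n)]
    {C : Ctx I ι X} {A : ∀ n, ι → X n → V n →L[ℝ] V n} {σ σ' τ : ℕ → ℕ × ℕ} {f g : ∀ n, X n → V n}
    (sk : ∀ n a x v w, ⟪A n a x v, w⟫_ℝ = -⟪v, A n a x w⟫_ℝ) (hf : Wt C A σ f) (hg : Wt C A σ' g)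
    (hc : Cn σ σ' τ) : Wt C (tv X ι fun _ => ℝ) τ fun n x => ⟪f n x, g n x⟫_ℝ :=
  Wt.bil (β := fun n => (innerSL ℝ : V n →L[ℝ] V n →L[ℝ] ℝ)) (K := 1)
    (fun _ _ => contMDiff_const) (fun _ => norm_innerSL_le ℝ) (fun n a x s t => by
      change (0 : ℝ) = ⟪A n a x s, t⟫_ℝ + ⟪s, A n a x t⟫_ℝ
      rw [sk]; ring) hf hg hc

variable [∀ n, MeasurableSpace (X n)] {b : Fb I ι X} {L₀ L L' : Sy ι X}

theorem Sy.Le.rfl : L.Le b L := fun _ _ _ _ _ => le_rfl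

theorem Sy.Le.trans (h : L₀.Le b L) (h' : L.Le b L') : L₀.Le b L' :=
  fun _ _ _ _ _ => (h ..).trans (h' ..)

variable (b L₀) in
/-- `p` holds for all systems above some consistent extension of `L₀` -/
def Ev (p : Sy ι X → Prop) : Prop :=
  ∃ L : Sy ι X, (∀ i, (L.f i).OK b (L₀.sum L)) ∧ ∀ L', (L₀.sum L).Le b L' → p L'

namespace Ev
variable {p p' : Sy ι X → Prop}

theorem of (h : ∀ L, L₀.Le b L → p L) : Ev b L₀ p :=
  ⟨Sy.nil, fun i => i.elim, fun _ hL => h _ ((le_sum_left b _ _).trans hL)⟩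

theorem mono (h : Ev b L₀ p) (e : ∀ L, L₀.Le b L → p L → p' L) : Ev b L₀ p' :=
  let ⟨L, h1, h2⟩ := h; ⟨L, h1, fun _ hL => e _ ((le_sum_left b _ _).trans hL) (h2 _ hL)⟩

/-- new fields -/
theorem new {L₁ : Sy ι X} (h : Ev b L₀ p)
    (e : ∀ L, L₀.Le b L → p L → L₁.Le b L → ∀ i, (L₁.f i).OK b L) :
    Ev b L₀ fun L => p L ∧ L₁.Le b L := by
  obtain ⟨L, h1, h2⟩ := h
  have a1 : (L₀.sum L).Le b (L₀.sum (L.sum L₁)) := (le_sum_left b L L₁).sum L₀
  have a2 : L₁.Le b (L₀.sum (L.sum L₁)) := (le_sum_right b L L₁).trans (le_sum_right b _ _)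
  refine ⟨L.sum L₁, ?_, fun _ hL => ⟨h2 _ (a1.trans hL), a2.trans hL⟩⟩
  rintro (i | i)
  exacts [(h1 i).le a1, e _ (le_sum_left b _ _) (h2 _ a1) a2 i]

theorem and (h : Ev b L₀ p) (h' : Ev b L₀ p') : Ev b L₀ fun L => p L ∧ p' L := by
  obtain ⟨L, h1, h2⟩ := h'
  obtain ⟨L₂, k1, k2⟩ := h
  have a1 : (L₀.sum L₂).Le b (L₀.sum (L₂.sum L)) := (le_sum_left b L₂ L).sum L₀
  have a2 : (L₀.sum L).Le b (L₀.sum (L₂.sum L)) := (le_sum_right b L₂ L).sum L₀
  refine ⟨L₂.sum L, ?_, fun _ hL => ⟨k2 _ (a1.trans hL), h2 _ (a2.trans hL)⟩⟩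
  rintro (i | i)
  exacts [(k1 i).le a1, (h1 i).le a2]

theorem all {κ : Type*} [Finite κ] {p : κ → Sy ι X → Prop} (h : ∀ i, Ev b L₀ (p i)) :
    Ev b L₀ fun L => ∀ i, p i L := by
  classical
  have := Fintype.ofFinite κ
  have : ∀ t : Finset κ, Ev b L₀ fun L => ∀ i ∈ t, p i L := fun t => by
    induction t using Finset.induction_on with
    | empty => exact of fun _ _ => by simp
    | insert a t _ ih => exact ((h a).and ih).mono fun _ _ h => by simpa using h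
  exact (this Finset.univ).mono fun _ _ h i => h i (Finset.mem_univ i)

end Ev

section PF
variable {A : ∀ n, ι → X n → V n →L[ℝ] V n} {B : ∀ n, ι → X n → W n →L[ℝ] W n}
  {D : ∀ n, ι → X n → U n →L[ℝ] U n} {σ σ' τ : ℕ → ℕ → ℕ × ℕ} {s s' : ∀ n, X n → V n}
  {t : ∀ n, X n → W n} {u : ∀ n, X n → U n}

variable (b) in
/-- the class `σ dw` over the system `L`, for both weights -/
def WW (L : Sy ι X) (σ : ℕ → ℕ → ℕ × ℕ) (A : ∀ n, ι → X n → V n →L[ℝ] V n) (s : ∀ n, X n → V n) :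
    Prop := ∀ dw, 3 ≤ dw → dw ≤ 4 → Wt (b.cx L dw) A (σ dw) s

theorem pf_iff : PF b L₀ σ A s ↔ Ev b L₀ fun L => WW b L σ A s :=
  ⟨fun ⟨L, h1, h2⟩ => ⟨L, h1, fun _ hL dw a c => (h2 dw a c).le hL⟩,
    fun ⟨L, h1, h2⟩ => ⟨L, h1, h2 _ Sy.Le.rfl⟩⟩

theorem Fb.CB.pf (h : b.CB A s) : PF b L₀ σ A s := pf_iff.2 (.of fun L _ dw _ _ => h.wt L dw _)

namespace PF

theorem ev (h : PF b L₀ σ A s) : Ev b L₀ fun L => WW b L σ A s := pf_iff.1 h

theorem one (h : PF b L₀ σ A s) (e : ∀ L dw, L₀.Le b L → 3 ≤ dw → dw ≤ 4 →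
    Wt (b.cx L dw) A (σ dw) s → Wt (b.cx L dw) B (τ dw) t) : PF b L₀ τ B t :=
  pf_iff.2 (h.ev.mono fun L hL h dw a c => e L dw hL a c (h dw a c))

theorem two (h : PF b L₀ σ A s) (h' : PF b L₀ σ' B t) (e : ∀ L dw, L₀.Le b L → 3 ≤ dw → dw ≤ 4 →
    Wt (b.cx L dw) A (σ dw) s → Wt (b.cx L dw) B (σ' dw) t → Wt (b.cx L dw) D (τ dw) u) :
    PF b L₀ τ D u :=
  pf_iff.2 ((h.ev.and h'.ev).mono fun L hL h dw a c => e L dw hL a c (h.1 dw a c) (h.2 dw a c))

theorem sA (h : PF b L₀ σ A s) (n : α) (a : ι) : Sm I (A n a) :=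
  let ⟨_, _, h⟩ := h; (h 3 le_rfl (by omega)).sA n a

theorem sm (h : PF b L₀ σ A s) (n : α) : Sm I (s n) :=
  let ⟨_, _, h⟩ := h; (h 3 le_rfl (by omega)).sm n

theorem mono (h : PF b L₀ σ A s) (e : ∀ dw, 3 ≤ dw → dw ≤ 4 → ∀ k, σ dw k ≤ τ dw k) :
    PF b L₀ τ A s := h.one fun _ dw _ a c h => h.mono (e dw a c)

theorem congr (h : PF b L₀ σ A s) (e : ∀ n x, s' n x = s n x) : PF b L₀ σ A s' :=
  h.one fun _ _ _ _ _ h => h.congr e

theorem zero (sA : ∀ n a, Sm I (A n a)) : PF b L₀ σ A fun _ _ => 0 :=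
  Fb.CB.pf (Wt.zero sA)

theorem add (h : PF b L₀ σ A s) (h' : PF b L₀ σ A s') : PF b L₀ σ A fun n x => s n x + s' n x :=
  h.two h' fun _ _ _ _ _ => Wt.add

theorem sub (h : PF b L₀ σ A s) (h' : PF b L₀ σ A s') : PF b L₀ σ A fun n x => s n x - s' n x :=
  h.two h' fun _ _ _ _ _ => Wt.sub

theorem neg (h : PF b L₀ σ A s) : PF b L₀ σ A fun n x => -s n x := h.one fun _ _ _ _ _ => Wt.neg

theorem sum {κ : Type} [Fintype κ] (sA : ∀ n a, Sm I (A n a)) {w : κ → ∀ n, X n → V n}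
    (h : ∀ i, PF b L₀ σ A (w i)) : PF b L₀ σ A fun n x => ∑ i, w i n x :=
  pf_iff.2 ((Ev.all fun i => (h i).ev).mono fun _ _ h dw a c => Wt.sum sA fun i => h i dw a c)

theorem fsum {κ : Type*} (sA : ∀ n a, Sm I (A n a)) (T : Finset κ) {w : κ → ∀ n, X n → V n}
    (h : ∀ i ∈ T, PF b L₀ σ A (w i)) : PF b L₀ σ A fun n x => ∑ i ∈ T, w i n x :=
  pf_iff.2 ((Ev.all fun i : T => (h i i.2).ev).mono fun _ _ h dw a c =>
    Wt.fsum sA T fun i hi => h ⟨i, hi⟩ dw a c)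

/-- multiplication by a bounded function -/
theorem cs {φ : ∀ n, X n → ℝ} (hφ : b.CS φ) (h : PF b L₀ σ A s) (hσ : ∀ dw, Monotone (σ dw)) :
    PF b L₀ σ A fun n x => φ n x • s n x :=
  h.one fun L dw _ _ _ h => (hφ.wt L dw 0).smul h (cn0 (hσ dw))

/-- applying a bounded family of maps -/
theorem cb {T : ∀ n, X n → V n →L[ℝ] W n} (sB : ∀ n a, Sm I (B n a))
    (hT : b.CB (fun n => hom (A n) (B n)) T) (h : PF b L₀ σ A s) (hσ : ∀ dw, Monotone (σ dw)) :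
    PF b L₀ σ B fun n x => T n x (s n x) :=
  h.one fun L dw _ _ _ h => (hT.wt L dw 0).app sB h (cn0 (hσ dw))

theorem smul {φ : ∀ n, X n → ℝ} (hφ : PF b L₀ sP (tv X ι fun _ => ℝ) φ) (h : PF b L₀ sP A s) :
    PF b L₀ sP A fun n x => φ n x • s n x := hφ.two h fun _ _ _ _ _ h h' => h.smul h' cn_P

theorem app {T : ∀ n, X n → V n →L[ℝ] W n} (sB : ∀ n a, Sm I (B n a))
    (hT : PF b L₀ sP (fun n => hom (A n) (B n)) T) (h : PF b L₀ sP A s) :
    PF b L₀ sP B fun n x => T n x (s n x) := hT.two h fun _ _ _ _ _ h h' => h.app sB h' cn_P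

theorem bil {β : ∀ n, V n →L[ℝ] W n →L[ℝ] U n} (sD : ∀ n a, Sm I (D n a)) {K : ℝ}
    (h0 : ∀ n, ‖β n‖ ≤ K)
    (hβ : ∀ n a x s t, D n a x (β n s t) = β n (A n a x s) t + β n s (B n a x t))
    (h : PF b L₀ sP A s) (h' : PF b L₀ sP B t) : PF b L₀ sP D fun n x => β n (s n x) (t n x) :=
  h.two h' fun _ _ _ _ _ h h' => Wt.bil sD h0 hβ h h' cn_P

theorem nem {f : ∀ n, X n → ℝ} (hf : PF b L₀ sP (tv X ι fun _ => ℝ) f) {T : Set ℝ}
    (hT : IsClosed T) (hfT : ∀ n x, f n x ∈ T) {φ : ℝ → ℝ} (hφ : ∀ s ∈ T, ContDiffAt ℝ ∞ φ s)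
    (h : PF b L₀ sP A s) : PF b L₀ sP A fun n x => φ (f n x) • s n x :=
  hf.two h fun _ _ _ _ _ h h' => h.nem hT hfT hφ h'

theorem pL (h : PF b L₀ sP A s) : PF b L₀ sL A s := h.mono fun _ _ _ => sP_sL

theorem uL (h : PF b L₀ (fun _ => sU 4) A s) : PF b L₀ sL A s :=
  h.mono fun _ _ _ => sU_sL (by omega)

theorem wP (h : PF b L₀ sW A s) : PF b L₀ sP A s := h.mono fun _ _ _ => sW_sP (by omega)

/-- sections of the class `sP` are bounded -/
theorem bd (h : PF b L₀ sP A s) : b.Bd s := by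
  obtain ⟨L, -, h⟩ := h
  obtain ⟨K, -, hK⟩ := (h 3 le_rfl (by omega)).bd [] 0 1 (by simp [sP])
  refine ⟨K, hK.mono fun q hq => ?_⟩
  set S := ∑ i, ‖((L₀.sum L).f i).s q.1 q.2‖ ^ 2
  have h0 : 0 ≤ S := Finset.sum_nonneg fun _ _ => sq_nonneg _
  have h1 : 1 ≤ 1 + S := by linarith
  have := hq (1 + S) h1 (Real.sqrt_le_one.2 ?_)
  · simpa [sP, bt, Dw] using this
  refine (Finset.sum_le_sum (g := fun i => (1 + S)⁻¹ * ‖((L₀.sum L).f i).s q.1 q.2‖ ^ 2)
    fun i _ => mul_le_mul_of_nonneg_right (inv_anti₀ (by linarith) ?_) (sq_nonneg _)).trans ?_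
  · rw [← pow_mul]
    exact le_self_pow₀ h1 (by unfold Fld.d; split <;> omega)
  · rw [← Finset.mul_sum, inv_mul_le_iff₀ (by linarith)]; linarith

end PF
end PF

section res
variable {V : α → Type} [∀ n, NormedAddCommGroup (V n)] [∀ n, InnerProductSpace ℝ (V n)]
  {A : ∀ n, ι → X n → V n →L[ℝ] V n} {s u : ∀ n, X n → V n} {g : ∀ n, ι → X n → ℝ} {dw : ℕ}

variable (b) in
/-- the derivatives of a bounded section as a system -/
def syD (A : ∀ n, ι → X n → V n →L[ℝ] V n) (u : ∀ n, X n → V n) : Sy ι X :=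
  ⟨ι, fun a => ⟨V, A, fun n => nab I (b.e n) (A n) a (u n), true⟩⟩

/-- one field of weight four -/
def sy1 (A : ∀ n, ι → X n → V n →L[ℝ] V n) (u : ∀ n, X n → V n) : Sy ι X :=
  ⟨Unit, fun _ => ⟨V, A, u, false⟩⟩

theorem Crv.D {C : Ctx I ι X} (h : Crv b C A u) (a : ι) :
    Crv b C A fun n => nab I (b.e n) (A n) a (u n) :=
  fun a' a'' => let ⟨R, h1, h2⟩ := h a' a''; ⟨R, h1, fun n v => h2 n (a :: v)⟩

theorem wt_sW (sA : ∀ n a, Sm I (A n a)) (sm : ∀ n, Sm I (u n)) (bd : b.Bd u)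
    (h : ∀ a, Wt (b.cx L dw) A (sU dw) fun n => nab I (b.e n) (A n) a (u n)) :
    Wt (b.cx L dw) A (sW dw) u := Wt.of_D sA sm (B0.bdd bd.choose_spec) h

theorem L0_eq (n : α) (x : X n) : L0 I (b.e n) (A n) (u n) x =
    -lap I (b.e n) (g n) (A n) (u n) x - ∑ a, g n a x • nab I (b.e n) (A n) a (u n) x := by
  simp only [L0, lap, neg_neg, Finset.sum_add_distrib, add_sub_cancel_right]

/-- the derivative of a bounded section is a consistent field -/
theorem ok_nab (hc : ∀ a a' k, b.CS fun n => b.c n a a' k) (hg : ∀ a, b.CS fun n => g n a)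
    (sA : ∀ n a, Sm I (A n a)) (sk : ∀ n a x v w, ⟪A n a x v, w⟫_ℝ = -⟪v, A n a x w⟫_ℝ)
    (sm : ∀ n, Sm I (u n)) (bd : b.Bd u) (cr : ∀ dw, 3 ≤ dw → dw ≤ 4 → Crv b (b.cx L dw) A u)
    (hD : ∀ dw a, Wt (b.cx L dw) A (sU dw) fun n => nab I (b.e n) (A n) a (u n))
    (hl : WW b L sL A fun n => lap I (b.e n) (g n) (A n) (u n)) (a : ι) :
    ((syD b A u).f a).OK b L := by
  refine ⟨sA, (hD 3 a).sm, sk, fun dw h3 h4 => (cr dw h3 h4).D a, fun dw h3 h4 =>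
    ⟨fun k => (sL dw (k + 1)).2, ?_, ?_, ?_⟩, .inr ⟨rfl, u, a, sm, bd, fun _ => rfl⟩⟩
  · simp only [sL, Fld.d, syD, if_true]; omega
  · rintro rfl; simp [sL, Fld.d, syD]
  choose R hR eR using cr dw h3 h4
  have hu := wt_sW sA sm bd (hD dw)
  have cw := fun a a' k => (hc a a' k).wt L dw 0
  have h0 : Wt (b.cx L dw) A (sL dw) fun n => L0 I (b.e n) (A n) (u n) :=
    ((hl dw h3 h4).neg.sub (Wt.sum sA fun a => (((hg a).wt L dw 0).smul (hD dw a)
      (cn0 (sU_mono _))).mono (sU_sL (by omega)))).congr L0_eq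
  have := (h0.D a).add (Wt.sum (σ := fun k => sL dw (k + 1)) sA fun a' =>
    (((hR a' a).app sA (hD dw a') ?_).add
      (Wt.sum sA fun k => (cw a' a k).smul ((hD dw a').D k) ?_)).add
      ((((hR a' a).app sA hu (cn_UW (by omega))).add (Wt.sum sA fun k =>
        ((cw a' a k).smul (hD dw k) (cn0 (sU_mono _))).mono (sU_sL (by omega)))).D a'))
  · refine this.congr fun n x => (L0_nab (sA n) (b.frm n) (sm n) a x).trans ?_
    have e0 := fun a' x => eR a' a n [] x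
    have e1 := fun a' => eR a' a n [a'] x
    simp only [Dw] at e0 e1
    simp only [show (b.cx L dw).e = b.e from rfl, e0, e1]
  all_goals
    intro i j
    refine ⟨?_, le_max_of_le_left ?_⟩ <;>
      simp only [sU, sL, Prod.fst_add, Prod.snd_add, Pi.zero_apply, Prod.fst_zero, Prod.snd_zero] <;>
      omega

/-- **bounded solutions of the resolvent equation** -/
theorem PF.res (hc : ∀ a a' k, b.CS fun n => b.c n a a' k) (hg : ∀ a, b.CS fun n => g n a)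
    (sk : ∀ n a x v w, ⟪A n a x v, w⟫_ℝ = -⟪v, A n a x w⟫_ℝ) (sm : ∀ n, Sm I (u n)) (bd : b.Bd u)
    (cr : ∀ dw, 3 ≤ dw → dw ≤ 4 → Crv b (b.cx L₀ dw) A u)
    (e : ∀ n x, u n x + lap I (b.e n) (g n) (A n) (u n) x = s n x) (hs : PF b L₀ sL A s) :
    PF b L₀ sW A u := by
  have sA := hs.sA
  have hD : ∀ L, (syD b A u).Le b L → ∀ dw a,
      Wt (b.cx L dw) A (sU dw) fun n => nab I (b.e n) (A n) a (u n) := fun L hL dw a =>
    (wt_fld (L := syD b A u) a sA fun n => sm_nab (b.frm n).se (sA n) (sm n) a).le hL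
  refine pf_iff.2 ((hs.ev.new (L₁ := syD b A u) fun L h0 h h1 => ok_nab hc hg sA sk sm bd
    (fun dw a c => (cr dw a c).le h0) (hD L h1) fun dw a c => ?_).mono
    fun L _ h dw _ _ => wt_sW sA sm bd (hD L h.2 dw))
  exact ((h dw a c).sub ((wt_sW sA sm bd (hD L h1 dw)).mono fun k =>
    (sW_sP (by omega) k).trans (sP_sL k))).congr fun n x => eq_sub_of_add_eq' (e n x)

/-- **`L⁴` solutions of the resolvent equation** -/
theorem PF.res4 (hg : ∀ a, b.CS fun n => g n a)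
    (sk : ∀ n a x v w, ⟪A n a x v, w⟫_ℝ = -⟪v, A n a x w⟫_ℝ) (sm : ∀ n, Sm I (u n)) (l4 : b.L4 u)
    (cr : ∀ dw, 3 ≤ dw → dw ≤ 4 → Crv b (b.cx L₀ dw) A u)
    (e : ∀ n x, u n x + lap I (b.e n) (g n) (A n) (u n) x = s n x)
    (hs : PF b L₀ (fun _ => sU 4) A s) : PF b L₀ (fun _ => sU 4) A u := by
  have sA := hs.sA
  have hU : ∀ L, (sy1 A u).Le b L → ∀ dw, Wt (b.cx L dw) A (sU 4) u := fun L hL dw =>
    (wt_fld (L := sy1 A u) () sA sm).le hL
  refine pf_iff.2 ((hs.ev.new (L₁ := sy1 A u) fun L h0 h h1 _ => ⟨sA, sm, sk,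
    fun dw a c => (cr dw a c).le h0, fun dw a c => ⟨fun k => (sU 4 (k + 1)).2, by simp [sU, Fld.d, sy1],
      fun _ => by simp [sU, Fld.d, sy1], ?_⟩, .inl ⟨rfl, .inr l4⟩⟩).mono fun L _ h dw _ _ => hU L h.2 dw)
  have hm := fun k => sU_mono 4 (Nat.le_succ k)
  refine ((((h dw a c).sub (hU L h1 dw)).mono hm).neg.sub (Wt.sum sA fun a' =>
    ((hg a').wt L dw 0).smul ((hU L h1 dw).D a') (cn0 fun _ _ h => sU_mono 4 (by omega)))).congr
    fun n x => (L0_eq (g := g) n x).trans ?_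
  rw [← e n x, add_sub_cancel_left]; rfl

end res

end Crest.Agent.X212.Cmp73
end
end

-- ▼ part X212/Th31/Cu
section

/-!
# Row 212, COMP (helper31): currents, their two-forms, substitution of fields
-/

set_option autoImplicit false
set_option linter.unusedSectionVars false
open Set Filter Topology Function MeasureTheory
open scoped ContDiff Manifold InnerProductSpace NNReal

noncomputable section
namespace Crest.Agent.X212.Th31

open Cmp73
open An (Sm)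
open Wz78 (nab curv lap SA Frm Con d2 Nu Vb pR nu_wt)
open Sob92 (dv)

/-! ### substitution of jet sizes -/

section scal
variable {Q : Type} {T T' : Jt Q} {k k' : ℕ} {g g' g'' : Q → ℝ → ℝ}

/-- the scalar class of level `k` and weight zero for quantities which depend on the scale -/
def B1 (T : Jt Q) (k : ℕ) (g : Q → ℝ → ℝ) : Prop :=
  ∀ (r : ℕ) (R : ℝ), k ≤ r + 2 → ∃ K, 0 ≤ K ∧ ∀ᶠ q in T.F, ∀ μ, 1 ≤ μ → T.J r q μ ≤ R →
    g q μ ≤ K * bt (fun r => T.J r q μ) r (k - r)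

theorem B1.add (h : B1 T k g) (h' : B1 T k g') (e : ∀ q μ, 1 ≤ μ → g'' q μ ≤ g q μ + g' q μ) :
    B1 T k g'' := fun r R hr =>
  let ⟨K, h0, hK⟩ := h r R hr
  let ⟨K', h0', hK'⟩ := h' r R hr
  ⟨K + K', add_nonneg h0 h0', (hK.and hK').mono fun q hq μ h1 h2 => (e q μ h1).trans
    ((add_le_add (hq.1 μ h1 h2) (hq.2 μ h1 h2)).trans_eq (add_mul ..).symm)⟩

theorem B1.sum {κ : Type} [Fintype κ] {f : κ → Q → ℝ → ℝ} (h : ∀ i, B1 T k (f i)) :
    B1 T k fun q μ => ∑ i, f i q μ := by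
  classical
  induction (Finset.univ : Finset κ) using Finset.induction_on with
  | empty => exact fun _ _ _ => ⟨0, le_rfl, .of_forall fun _ _ _ _ => by simp⟩
  | insert i s hi ih => exact (h i).add ih fun _ _ _ => (Finset.sum_insert hi).le

theorem B1.of_le (h : B1 T k g) (e : ∀ q μ, 1 ≤ μ → g' q μ ≤ g q μ) : B1 T k g' := fun r R hr =>
  let ⟨K, h0, hK⟩ := h r R hr
  ⟨K, h0, hK.mono fun q hq μ h1 h2 => (e q μ h1).trans (hq μ h1 h2)⟩

theorem b1_b0 {d : ℕ} {g : Q → ℝ} (h : B0 T (k, d) g) : B1 T k fun q μ => (μ ^ d)⁻¹ * g q :=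
  fun r R hr => let ⟨K, h0, hK⟩ := h r R hr
  ⟨K, h0, hK.mono fun q hq μ h1 h2 => by
    rw [inv_mul_le_iff₀ (by positivity)]
    exact (hq μ h1 h2).trans_eq (by ring)⟩

theorem b0_subst {s : ℕ × ℕ} {g : Q → ℝ} (h : B0 T s g) (hF : T'.F ≤ T.F)
    (hJ : ∀ k, B1 T' k (T.J k)) : B0 T' s g := by
  intro r R hr
  obtain ⟨K0, -, h0⟩ := hJ r r R (by omega)
  obtain ⟨K1, k1, h1⟩ := hJ (r + 1) r R (by omega)
  obtain ⟨K2, k2, h2⟩ := hJ (r + 2) r R le_rfl
  obtain ⟨K, k0, hK⟩ := h r K0 hr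
  refine ⟨K * ((1 + K1) ^ 2 + K2), by positivity, ?_⟩
  filter_upwards [h0, h1, h2, hK.filter_mono hF] with q a0 a1 a2 a3 μ m1 m2
  replace a0 := a0 μ m1 m2
  replace a1 := a1 μ m1 m2
  replace a2 := a2 μ m1 m2
  simp only [Nat.sub_self, Nat.add_sub_cancel_left, bt, mul_one] at a0 a1 a2
  refine (a3 μ m1 a0).trans ?_
  rw [mul_right_comm K _ (μ ^ s.2), mul_assoc (K * μ ^ s.2)]
  have m0 : 0 ≤ μ := by linarith
  refine mul_le_mul_of_nonneg_left ?_ (by positivity)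
  have n1 := T'.nn (r + 1) q μ
  have n2 := T'.nn (r + 2) q μ
  have n3 := T.nn (r + 1) q μ
  have e1 : 1 + T.J (r + 1) q μ ≤ (1 + K1) * (1 + T'.J (r + 1) q μ) := by nlinarith
  have e2 := pow_le_pow_left₀ (by positivity) e1 2
  rcases s.1 - r with _ | _ | d <;> simp only [bt]
  · nlinarith
  · nlinarith [mul_nonneg k2 n1, mul_nonneg (mul_nonneg k1 k1) n1, mul_nonneg k1 n1]
  · nlinarith [mul_nonneg (sq_nonneg (1 + K1)) n2]

theorem sqrt_sum_le {κ : Type} [Fintype κ] {f : κ → ℝ} (h : ∀ i, 0 ≤ f i) :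
    √(∑ i, f i) ≤ ∑ i, √(f i) :=
  Real.sqrt_le_iff.2 ⟨by positivity, (Finset.sum_congr rfl fun i _ => (Real.sq_sqrt (h i)).symm).trans_le
    (Finset.sum_sq_le_sq_sum_of_nonneg fun _ _ => Real.sqrt_nonneg _)⟩

end scal

section vb
variable {Q : Type} {F : Filter Q} {p p' : Q → ℝ → Prop} {u u' : Q → ℝ → ℝ} {V W : Q → Type}
  [∀ q, NormedAddCommGroup (V q)] [∀ q, NormedAddCommGroup (W q)] {f : ∀ q, V q} {g : ∀ q, W q}

theorem vb_chg (h : Vb F p u f) {C : ℝ} (C0 : 0 ≤ C)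
    (e : ∀ᶠ q in F, ∀ μ, p' q μ → p q μ ∧ u q μ ≤ C * u' q μ) : Vb F p' u' f :=
  let ⟨K, h0, h1⟩ := h
  ⟨K * C, by positivity, (h1.and e).mono fun q hq μ hp => (hq.1 μ (hq.2 μ hp).1).trans
    ((mul_le_mul_of_nonneg_left (hq.2 μ hp).2 h0).trans_eq (mul_assoc ..).symm)⟩

theorem vb_of_le (h : Vb F p u f) {C : ℝ} (C0 : 0 ≤ C) (e : ∀ q, ‖g q‖ ≤ C * ‖f q‖) : Vb F p u g :=
  let ⟨K, h0, h1⟩ := h
  ⟨C * K, by positivity, h1.mono fun q hq μ hp => (e q).trans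
    ((mul_le_mul_of_nonneg_left (hq μ hp) C0).trans_eq (mul_assoc ..).symm)⟩

end vb

variable {E : Type} [NormedAddCommGroup E] [NormedSpace ℝ E] {HM : Type} [TopologicalSpace HM]
  {I : ModelWithCorners ℝ E HM} {ι : Type} [Fintype ι]
  {α : Type} {X : α → Type} [∀ n, TopologicalSpace (X n)] [∀ n, ChartedSpace HM (X n)]
  [∀ n, IsManifold I ∞ (X n)] [∀ n, MeasurableSpace (X n)] {b : Fb I ι X} {L₀ L L₁ L₂ : Sy ι X}

section sub
variable {V : α → Type} [∀ n, NormedAddCommGroup (V n)] [∀ n, NormedSpace ℝ (V n)]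
  {A : ∀ n, ι → X n → V n →L[ℝ] V n} {C : Ctx I ι X}

theorem b1_hs (k : ℕ) : ∀ {m d : ℕ} {s : ∀ n, X n → V n}, Wt C A (fun j => (j + m, d + 2 * j)) s →
    B1 C.toJt (k + m) fun q μ => (μ ^ d)⁻¹ * √(hs I (C.e q.1) (A q.1) μ k (s q.1) q.2) := by
  induction k with
  | zero => exact fun h => (b1_b0 (h.bd [])).of_le fun q μ _ => by simp [hs, Dw]
  | succ k ih =>
    intro m d s h
    have h1 := B1.sum fun a => ih (m := m + 1) (d := d + 2) ((h.D a).mono fun j => by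
      simp only [Prod.mk_le_mk]; omega)
    rw [show k + (m + 1) = k + 1 + m by omega] at h1
    refine (b1_b0 (k := k + 1 + m) (d := d) ((h.bd []).mono ⟨by simp, by simp⟩)).add h1 fun q μ m1 => ?_
    have m0 : 0 < μ := by linarith
    simp only [pow_add, mul_inv, mul_assoc, ← Finset.mul_sum, ← mul_add, hs, Dw]
    refine mul_le_mul_of_nonneg_left ((Real.sqrt_le_iff.2 ⟨by positivity, ?_⟩)) (by positivity)
    have h2 := pow_le_pow_left₀ (Real.sqrt_nonneg _) (sqrt_sum_le fun a => hs_nonneg (I := I)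
      (e := C.e q.1) (A := A q.1) (μ := μ) k (nab I (C.e q.1) (A q.1) a (s q.1)) q.2) 2
    rw [Real.sq_sqrt (Finset.sum_nonneg fun _ _ => hs_nonneg ..)] at h2
    rw [add_sq, mul_pow, inv_pow, ← pow_mul, add_right_comm]
    exact le_add_of_le_of_nonneg (add_le_add_right (mul_le_mul_of_nonneg_left h2 (by positivity)) _)
      (by positivity)

variable (b L₁ L₂) in
/-- the fields of `L₁` are controlled by `L₂` (weight three) -/
structure Sb : Prop where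
  wt : ∀ i, Wt (b.cx L₂ 3) (L₁.f i).A (sU ((L₁.f i).d 3)) (L₁.f i).s
  tr : ∀ i, (L₁.f i).t = true → ∀ μ n x, ‖(L₁.f i).s n x‖ ^ 2 ≤ b.H L₂ 0 μ 0 n x

namespace Sb
variable (h : Sb b L₁ L₂)
include h

theorem b1 (k : ℕ) : B1 (b.cx L₂ 3).toJt k ((b.cx L₁ 3).J k) :=
  (B1.sum fun i => b1_hs (m := 0) k (h.wt i)).of_le fun q μ m1 =>
    (sqrt_sum_le fun i => mul_nonneg (by positivity) (hs_nonneg ..)).trans_eq
      (Finset.sum_congr rfl fun i _ => by
        rw [Real.sqrt_mul (by positivity), Real.sqrt_inv, Real.sqrt_sq (by positivity)]; rfl)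

theorem w {σ : ℕ → ℕ × ℕ} {f : ∀ n, X n → V n} (hf : Wt (b.cx L₁ 3) A σ f) : Wt (b.cx L₂ 3) A σ f :=
  ⟨hf.sA, hf.sm, fun v => b0_subst (hf.bd v) le_rfl h.b1⟩

theorem crv {f : ∀ n, X n → V n} (hf : Crv b (b.cx L₁ 3) A f) : Crv b (b.cx L₂ 3) A f :=
  fun a a' => let ⟨R, h1, h2⟩ := hf a a'; ⟨R, h.w h1, h2⟩

theorem H (r : ℕ) (R : ℝ) : ∃ R', ∀ᶠ q in b.F, ∀ μ, 1 ≤ μ → b.H L₂ 3 μ r q.1 q.2 ≤ R →
    b.H L₁ 3 μ r q.1 q.2 ≤ R' :=
  let ⟨K, k0, hK⟩ := h.b1 r r (√R) (by omega)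
  ⟨K ^ 2, hK.mono fun q hq μ m1 m2 => (Real.sqrt_le_left k0).1 (by
    simpa [bt, Fb.cx] using hq μ m1 (Real.sqrt_le_sqrt m2))⟩

theorem o3 {f : Fld ι X} (hf : f.O3 b L₁) : f.O3 b L₂ :=
  ⟨hf.sA, hf.sm, hf.sk, h.crv hf.crv, let ⟨ϖ, a1, a2, a3⟩ := hf.lap; ⟨ϖ, a1, a2, h.w a3⟩,
    hf.kind.imp_left (And.imp_right (Or.imp_left fun k R =>
      let ⟨R', h1⟩ := h.H 0 R
      let ⟨C, C0, h2⟩ := k R'
      ⟨C, C0, (h1.and h2).mono fun _ hq μ m1 m2 => hq.2 μ m1 (hq.1 μ m1 m2)⟩))⟩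

theorem H0 (μ : ℝ) (n : α) (x : X n) :
    b.H L₁ 0 μ 0 n x ≤ b.H L₁ 3 μ 0 n x + Fintype.card L₁.κ * b.H L₂ 0 μ 0 n x := by
  rw [← nsmul_eq_mul, ← Finset.card_univ, ← Finset.sum_const, Fb.H, Fb.H, ← Finset.sum_add_distrib]
  refine Finset.sum_le_sum fun i _ => ?_
  rcases ht : (L₁.f i).t
  · simp only [Fld.d, ht]
    exact le_add_of_nonneg_right (b.H_nonneg ..)
  · refine le_add_of_nonneg_of_le (mul_nonneg (by positivity) (hs_nonneg ..)) ?_
    simpa [Fld.d, ht, hs] using h.tr i ht μ n x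

theorem nu {V : α → Type} [∀ n, NormedAddCommGroup (V n)] [∀ n, InnerProductSpace ℝ (V n)]
    {A : ∀ n, ι → X n → V n →L[ℝ] V n} {f : ∀ n, X n → V n} (hf : Nu b L₁ A f) : Nu b L₂ A f := by
  refine ⟨hf.1, fun R => ?_⟩
  obtain ⟨R', h1⟩ := h.H 1 R
  set C : ℝ := 1 + |R'| + Fintype.card L₁.κ
  have C1 : 1 ≤ C := by have := abs_nonneg R'; simp only [C]; linarith [Nat.cast_nonneg (α := ℝ) (Fintype.card L₁.κ)]
  have e := h1.mono fun q hq μ (hp : pR b L₂ R q μ) => show pR b L₁ R' q μ ∧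
      μ ^ 4 + b.H L₁ 0 μ 0 q.1 q.2 ≤ C * (μ ^ 4 + b.H L₂ 0 μ 0 q.1 q.2) from ⟨⟨hp.1, hq μ hp.1 hp.2⟩, by
    have a1 := (b.H_mono ..).trans ((hq μ hp.1 hp.2).trans (le_abs_self _))
    have a2 := one_le_pow₀ (n := 4) hp.1
    have a3 := b.H_nonneg L₂ 0 μ 0 q.1 q.2
    nlinarith [h.H0 μ q.1 q.2, abs_nonneg R', Nat.cast_nonneg (α := ℝ) (Fintype.card L₁.κ),
      mul_nonneg (abs_nonneg R') a3]⟩
  refine ⟨vb_chg (hf.2 R').1 (by linarith) e, fun a => vb_chg ((hf.2 R').2 a) (Real.sqrt_nonneg C)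
    (e.mono fun q hq μ hp => ⟨(hq μ hp).1, ?_⟩)⟩
  rw [mul_left_comm, ← Real.sqrt_mul (by linarith)]
  exact mul_le_mul_of_nonneg_left (Real.sqrt_le_sqrt (hq μ hp).2) (by have := hp.1; positivity)

end Sb
end sub

/-! ### properties of the auxiliary fields -/

variable (b L₀) in
/-- `p L L₁` holds for all auxiliary systems `L` and total systems `L₁` above a consistent extension -/
def E2 (p : Sy ι X → Sy ι X → Prop) : Prop := ∃ L : Sy ι X, (∀ i, (L.f i).OK b (L₀.sum L)) ∧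
  ∀ L' L₁, L.Le b L' → (L₀.sum L).Le b L₁ → L'.Le b L₁ → p L' L₁

namespace E2
variable {p p' : Sy ι X → Sy ι X → Prop}

theorem of_ev {p : Sy ι X → Prop} (h : Ev b L₀ p) : E2 b L₀ fun _ L₁ => p L₁ :=
  let ⟨L, h1, h2⟩ := h; ⟨L, h1, fun _ _ _ a _ => h2 _ a⟩

theorem mono (h : E2 b L₀ p) (e : ∀ L L₁, L₀.Le b L₁ → L.Le b L₁ → p L L₁ → p' L L₁) : E2 b L₀ p' :=
  let ⟨L, h1, h2⟩ := h
  ⟨L, h1, fun _ _ a c d => e _ _ ((le_sum_left b _ _).trans c) d (h2 _ _ a c d)⟩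

theorem and (h : E2 b L₀ p) (h' : E2 b L₀ p') : E2 b L₀ fun L L₁ => p L L₁ ∧ p' L L₁ := by
  obtain ⟨L, h1, h2⟩ := h'
  obtain ⟨L₂, k1, k2⟩ := h
  have a1 := le_sum_left b L₂ L
  have a2 := le_sum_right b L₂ L
  refine ⟨L₂.sum L, ?_, fun _ _ a c d => ⟨k2 _ _ (a1.trans a) ((a1.sum L₀).trans c) d,
    h2 _ _ (a2.trans a) ((a2.sum L₀).trans c) d⟩⟩
  rintro (i | i)
  exacts [(k1 i).le (a1.sum L₀), (h1 i).le (a2.sum L₀)]

theorem of (h : ∀ L L₁, p L L₁) : E2 b L₀ p := ⟨Sy.nil, fun i => i.elim, fun _ _ _ _ _ => h _ _⟩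

end E2

/-- weights of currents -/
def sC (k : ℕ) : ℕ × ℕ := (k, min (3 + 3 * k) (4 + 2 * k))
/-- weights of exterior derivatives of currents -/
def sD (k : ℕ) : ℕ × ℕ := (k, max (6 + 2 * k) (4 + 3 * k))
/-- weights of curvature terms -/
def sN (k : ℕ) : ℕ × ℕ := (k, 4 + 3 * k)

theorem sC_mono : Monotone sC := fun _ _ h => ⟨h, by simp only [sC]; omega⟩
theorem sD_mono : Monotone sD := fun _ _ h => ⟨h, by simp only [sD]; omega⟩
theorem sC_sU (k : ℕ) : sC k ≤ sU 4 k := ⟨le_rfl, min_le_right _ _⟩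
theorem sU_sN (k : ℕ) : sU 4 k ≤ sN k := ⟨le_rfl, by simp only [sU, sN]; omega⟩
theorem sN_sD (k : ℕ) : sN k ≤ sD k := ⟨le_rfl, le_max_right _ _⟩
theorem cn_WU : Cn (sW 3) (sU 3) sC := fun i j => by
  rcases i with _ | i <;> simp only [sW, sU, sC, Prod.mk_add_mk, Prod.mk_le_mk, zero_add] <;> omega
theorem cn_UU : Cn (sU 3) (sU 3) sD := fun i j => by
  simp only [sU, sD, Prod.mk_add_mk, Prod.mk_le_mk]; omega
theorem cn_UP : Cn (sU 4) (sP 3) sN := fun i j => by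
  simp only [sU, sP, sN, Prod.mk_add_mk, Prod.mk_le_mk]; omega
theorem cn_PN : Cn (sP 3) sN sN := fun i j => by
  simp only [sP, sN, Prod.mk_add_mk, Prod.mk_le_mk]; omega

variable {V U U' : α → Type} [∀ n, NormedAddCommGroup (V n)] [∀ n, InnerProductSpace ℝ (V n)]
  [∀ n, NormedAddCommGroup (U n)] [∀ n, InnerProductSpace ℝ (U n)]
  [∀ n, NormedAddCommGroup (U' n)] [∀ n, InnerProductSpace ℝ (U' n)]
  {A : ∀ n, ι → X n → V n →L[ℝ] V n} {B : ∀ n, ι → X n → U n →L[ℝ] U n}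
  {B' : ∀ n, ι → X n → U' n →L[ℝ] U' n}

variable (b L₁ B) in
/-- exterior derivatives -/
structure ND (f : ∀ n, X n → U n) : Prop where
  w : Wt (b.cx L₁ 3) B sD f
  nu : Nu b L₁ B f

namespace ND
variable {f g : ∀ n, X n → U n}

theorem of (h : Wt (b.cx L₁ 3) B sN f) : ND b L₁ B f :=
  ⟨h.mono sN_sD, nu_wt h (by simp [sN]) (by simp [sN])⟩

theorem congr (h : ND b L₁ B f) (e : ∀ n x, g n x = f n x) : ND b L₁ B g :=
  ⟨h.w.congr e, h.nu.congr fun n x => (e n x).symm⟩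

theorem add (h : ND b L₁ B f) (h' : ND b L₁ B g) : ND b L₁ B fun n x => f n x + g n x :=
  ⟨h.w.add h'.w, h.nu.add h'.nu⟩

theorem sub (h : ND b L₁ B f) (h' : ND b L₁ B g) : ND b L₁ B fun n x => f n x - g n x :=
  ⟨h.w.sub h'.w, h.nu.sub h'.nu⟩

theorem sum {κ : Type} [Fintype κ] (sB : ∀ n a, Sm I (B n a)) {f : κ → ∀ n, X n → U n}
    (h : ∀ i, ND b L₁ B (f i)) : ND b L₁ B fun n x => ∑ i, f i n x :=
  ⟨Wt.sum sB fun i => (h i).w, .sum fun i => (h i).nu⟩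

theorem smul {φ : ∀ n, X n → ℝ} (hφ : b.CS φ) (h : ND b L₁ B f) :
    ND b L₁ B fun n x => φ n x • f n x :=
  ⟨(hφ.wt L₁ 3 0).smul h.w (cn0 sD_mono), h.nu.smul hφ⟩

theorem csmul (r : ℝ) (h : ND b L₁ B f) : ND b L₁ B fun n x => r • f n x :=
  ⟨h.w.const_smul r, h.nu.csmul r⟩

theorem sb (h : ND b L₁ B f) (s : Sb b L₁ L₂) : ND b L₂ B f := ⟨s.w h.w, s.nu h.nu⟩

end ND

theorem nab_par {T : ∀ n, X n → U n →L[ℝ] U' n} (sT : ∀ n, Sm I (T n))
    (h : ∀ n a x, dv I (b.e n a) (T n) x + (B' n a x ∘L T n x - T n x ∘L B n a x) = 0)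
    {n : α} {u : X n → U n} (hu : Sm I u) (a : ι) (x : X n) :
    nab I (b.e n) (B' n) a (fun x => T n x (u x)) x = T n x (nab I (b.e n) (B n) a u x) := by
  rw [nab_hom (A := B n) a (sT n x) (hu x),
    show nab I (b.e n) (hom (B n) (B' n)) a (T n) x = 0 from h n a x]
  simp

theorem ND.map {f : ∀ n, X n → U n} {T : ∀ n, X n → U n →L[ℝ] U' n} (sB : ∀ n a, Sm I (B' n a))
    (sT : ∀ n, Sm I (T n)) {K : ℝ} (K0 : 0 ≤ K) (h0 : ∀ n x, ‖T n x‖ ≤ K)
    (h : ∀ n a x, dv I (b.e n a) (T n) x + (B' n a x ∘L T n x - T n x ∘L B n a x) = 0)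
    (hf : ND b L₁ B f) : ND b L₁ B' fun n x => T n x (f n x) :=
  ⟨hf.w.map sB sT h0 h, fun n => (sT n).clm_apply (hf.w.sm n), fun R =>
    ⟨vb_of_le (hf.nu.2 R).1 K0 fun q => (T q.1 q.2).le_of_opNorm_le (h0 ..) _, fun a =>
      vb_of_le ((hf.nu.2 R).2 a) K0 fun q => by
        rw [nab_par sT h (hf.w.sm _)]; exact (T q.1 q.2).le_of_opNorm_le (h0 ..) _⟩⟩

variable (b L L₁ B) in
/-- one-forms like currents -/
structure CU0 (η : ι → ∀ n, X n → U n) : Prop where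
  hor : ∀ a n x, ∑ k, b.P n a k x • η k n x = η a n x
  c : ∀ a, Wt (b.cx L 3) B sC (η a)
  d : ∀ a a', ND b L₁ B fun n x =>
    nab I (b.e n) (B n) a (η a' n) x - nab I (b.e n) (B n) a' (η a n) x

variable (b L L₁ B) in
/-- two-forms like `t ∧ η` -/
structure TH0 (θ : ι → ι → ∀ n, X n → U n) : Prop where
  anti : ∀ i l n x, θ i l n x = -θ l i n x
  hor : ∀ i l n x, ∑ k, b.P n i k x • θ k l n x = θ i l n x
  c : ∀ i l, Wt (b.cx L 3) B sC (θ i l)
  d : ∀ a i l, ND b L₁ B fun n => d2 I (b.e n) (b.c n) (B n) (fun i l => θ i l n) a i l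

variable (b L₀ B) in
/-- the class of currents -/
def CU (η : ι → ∀ n, X n → U n) : Prop := E2 b L₀ fun L L₁ => CU0 b L L₁ B η

variable (b L₀ B) in
/-- the class of two-forms -/
def TH (θ : ι → ι → ∀ n, X n → U n) : Prop := E2 b L₀ fun L L₁ => TH0 b L L₁ B θ

namespace CU
variable {η η' : ι → ∀ n, X n → U n}

theorem congr (h : CU b L₀ B η) (e : ∀ a n x, η' a n x = η a n x) : CU b L₀ B η' := by
  rwa [show η' = η from funext fun a => funext fun n => funext (e a n)]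

theorem zero (sB : ∀ n a, Sm I (B n a)) : CU b L₀ B fun _ _ _ => 0 :=
  E2.of fun _ _ => ⟨fun _ _ _ => by simp, fun _ => Wt.zero sB, fun _ _ =>
    (ND.of (Wt.zero sB)).congr fun _ _ => by simp [nab_const0]⟩

theorem add (h : CU b L₀ B η) (h' : CU b L₀ B η') : CU b L₀ B fun a n x => η a n x + η' a n x :=
  (h.and h').mono fun _ _ _ _ ⟨k, k'⟩ => ⟨fun a n x => by
    simp only [smul_add, Finset.sum_add_distrib, k.hor, k'.hor], fun a => (k.c a).add (k'.c a),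
    fun a a' => ((k.d a a').add (k'.d a a')).congr fun n x => by
      rw [Wz78.nab_add a ((k.c a').sm n x) ((k'.c a').sm n x),
        Wz78.nab_add a' ((k.c a).sm n x) ((k'.c a).sm n x)]
      abel⟩

theorem map {T : ∀ n, X n → U n →L[ℝ] U' n} (sB : ∀ n a, Sm I (B' n a))
    (sT : ∀ n, Sm I (T n)) {K : ℝ} (K0 : 0 ≤ K) (h0 : ∀ n x, ‖T n x‖ ≤ K)
    (hT : ∀ n a x, dv I (b.e n a) (T n) x + (B' n a x ∘L T n x - T n x ∘L B n a x) = 0)
    (h : CU b L₀ B η) : CU b L₀ B' fun a n x => T n x (η a n x) :=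
  E2.mono h fun _ _ _ _ k => ⟨fun a n x => by simp only [← map_smul, ← map_sum, k.hor],
    fun a => (k.c a).map sB sT h0 hT, fun a a' => ((k.d a a').map sB sT K0 h0 hT).congr fun n x => by
      rw [nab_par sT hT ((k.c a).sm n), nab_par sT hT ((k.c a').sm n), map_sub]⟩

theorem csmul (r : ℝ) (h : CU b L₀ B η) : CU b L₀ B fun a n x => r • η a n x :=
  E2.mono h fun _ _ _ _ k => ⟨fun a n x => by simp only [smul_comm _ r, ← Finset.smul_sum, k.hor],
    fun a => (k.c a).const_smul r, fun a a' => ((k.d a a').csmul r).congr fun n x => by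
      rw [Wz78.nab_csmul a r ((k.c a').sm n x), Wz78.nab_csmul a' r ((k.c a).sm n x), smul_sub]⟩

theorem sub (h : CU b L₀ B η) (h' : CU b L₀ B η') : CU b L₀ B fun a n x => η a n x - η' a n x :=
  (h.add (h'.csmul (-1))).congr fun _ _ _ => by rw [neg_one_smul, sub_eq_add_neg]

/-- `t ∧ η` -/
theorem wedge (hc : ∀ a a' k, b.CS fun n => b.c n a a' k) {t : ι → ∀ n, X n → ℝ} (ht : ∀ a, b.CS (t a))
    (hor : ∀ a n x, ∑ k, b.P n a k x * t k n x = t a n x) (h : CU b L₀ B η) :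
    TH b L₀ B fun i l n x => t i n x • η l n x - t l n x • η i n x := by
  refine E2.mono h fun L L₁ _ hL k => ?_
  have c := fun i l => (((ht i).wt L 3 0).smul (k.c l) (cn0 sC_mono)).sub
    (((ht l).wt L 3 0).smul (k.c i) (cn0 sC_mono))
  have n0 : ∀ {f}, Wt (b.cx L 3) B sC f → ND b L₁ B f := fun h =>
    .of ((h.le hL).mono fun k => (sC_sU k).trans (sU_sN k))
  have n1 := fun a i l => ((n0 (k.c l)).smul (Wz78.cs_D (ht i) a)).sub
    ((n0 (k.c i)).smul (Wz78.cs_D (ht l) a))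
  have n2 := fun a i l => ND.sum (k.c a).sA fun j => (n0 (c j a)).smul (hc i l j)
  refine ⟨fun _ _ _ _ => (neg_sub _ _).symm, fun i l n x => ?_, c, fun a i l =>
    (((((k.d a l).smul (ht i)).add ((k.d i a).smul (ht l))).add ((k.d l i).smul (ht a))).add
      ((((n1 a i l).sub (n2 a i l)).add ((n1 i l a).sub (n2 i l a))).add
        ((n1 l a i).sub (n2 l a i)))).congr fun n x => ?_⟩
  · simp only [smul_sub, Finset.sum_sub_distrib, smul_comm _ (t l n x), ← Finset.smul_sum, k.hor]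
    simp only [smul_smul, ← Finset.sum_smul, hor]
  · have s := fun i l => SA.smul ((ht i).sm n x) ((k.c l).sm n x)
    simp only [d2, fun a i l => Wz78.nab_sub (e := b.e n) (A := B n) a (s i l) (s l i),
      fun a i l => Wz78.nab_smul (e := b.e n) (A := B n) a ((ht i).sm n x) ((k.c l).sm n x), smul_sub]
    abel

end CU

namespace TH
variable {θ θ' : ι → ι → ∀ n, X n → U n}

theorem zero (sB : ∀ n a, Sm I (B n a)) : TH b L₀ B fun _ _ _ _ => 0 :=
  E2.of fun _ _ => ⟨fun _ _ _ _ => neg_zero.symm, fun _ _ _ _ => by simp, fun _ _ => Wt.zero sB,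
    fun _ _ _ => (ND.of (Wt.zero sB)).congr fun _ _ => by simp [d2, nab_const0]⟩

theorem add (h : TH b L₀ B θ) (h' : TH b L₀ B θ') :
    TH b L₀ B fun i l n x => θ i l n x + θ' i l n x :=
  (h.and h').mono fun _ _ _ _ ⟨k, k'⟩ => ⟨fun i l n x => by rw [k.anti, k'.anti, neg_add],
    fun i l n x => by simp only [smul_add, Finset.sum_add_distrib, k.hor, k'.hor],
    fun i l => (k.c i l).add (k'.c i l), fun a i l => ((k.d a i l).add (k'.d a i l)).congr fun n x => by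
      simp only [d2, fun a i l => Wz78.nab_add (e := b.e n) (A := B n) a ((k.c i l).sm n x)
        ((k'.c i l).sm n x), smul_add, Finset.sum_add_distrib]
      abel⟩

theorem smul {z : α → ℝ} {K : ℝ} (hz : ∀ᶠ q in b.F, |z q.1| ≤ K) (h : TH b L₀ B θ) :
    TH b L₀ B fun i l n x => z n • θ i l n x :=
  have c : b.CS fun n _ => z n := Wt.cst hz
  E2.mono h fun L _ _ _ k => ⟨fun i l n x => by rw [k.anti, smul_neg],
    fun i l n x => by simp only [smul_comm _ (z n), ← Finset.smul_sum, k.hor],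
    fun i l => (c.wt L 3 0).smul (k.c i l) (cn0 sC_mono), fun a i l => ((k.d a i l).smul c).congr
      fun n x => by
      simp only [d2, fun a i l => Wz78.nab_csmul (e := b.e n) (A := B n) a (z n) ((k.c i l).sm n x),
        smul_add, smul_sub, smul_comm _ (z n), Finset.smul_sum]⟩

end TH

/-! ### currents of resolvent solutions -/

section res
variable {s u v l : ∀ n, X n → V n} {g : ∀ n, ι → X n → ℝ}

theorem wt_syD (sA : ∀ n a, Sm I (A n a)) (sm : ∀ n, Sm I (u n)) (hL : (syD b A u).Le b L) (dw : ℕ)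
    (a : ι) : Wt (b.cx L dw) A (sU dw) fun n => nab I (b.e n) (A n) a (u n) :=
  (wt_fld (L := syD b A u) a sA fun n => sm_nab (b.frm n).se (sA n) (sm n) a).le hL

/-- the derivatives of bounded resolvent solutions are auxiliary fields -/
theorem e2_res (hc : ∀ a a' k, b.CS fun n => b.c n a a' k) (hg : ∀ a, b.CS fun n => g n a)
    (sk : ∀ n a x v w, ⟪A n a x v, w⟫_ℝ = -⟪v, A n a x w⟫_ℝ) (sm : ∀ n, Sm I (u n)) (bd : b.Bd u)
    (cr : ∀ dw, 3 ≤ dw → dw ≤ 4 → Crv b (b.cx L₀ dw) A u)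
    (e : ∀ n x, u n x + lap I (b.e n) (g n) (A n) (u n) x = s n x) (hs : PF b L₀ sL A s) :
    E2 b L₀ fun L _ => (syD b A u).Le b L := by
  have sA := hs.sA
  obtain ⟨L, h1, h2⟩ := hs
  have a1 : (L₀.sum L).Le b (L₀.sum (L.sum (syD b A u))) := (le_sum_left b L _).sum L₀
  have a2 := (le_sum_right b L (syD b A u)).trans (le_sum_right b L₀ _)
  refine ⟨L.sum (syD b A u), ?_, fun _ _ a _ _ => (le_sum_right b _ _).trans a⟩
  rintro (i | i)
  · exact (h1 i).le a1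
  refine ok_nab hc hg sA sk sm bd (fun dw a c => (cr dw a c).le (le_sum_left b _ _))
    (wt_syD sA sm a2) (fun dw a c => ?_) i
  exact (((h2 dw a c).le a1).sub ((wt_sW sA sm bd (wt_syD sA sm a2 dw)).mono fun k =>
    (sW_sP (by omega) k).trans (sP_sL k))).congr fun n x => eq_sub_of_add_eq' (e n x)

theorem nab_le (hL : (syD b A u).Le b L) {μ : ℝ} (m1 : 1 ≤ μ) (a : ι) (n : α) (x : X n) :
    ‖nab I (b.e n) (A n) a (u n) x‖ ≤ √(b.H L 0 μ 0 n x) := by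
  have := hs_le_H (b := b) (L := syD b A u) (dw := 0) (μ := μ) (by linarith) a 0 x
  simp only [hs, syD, Fld.d, if_true, pow_zero, one_mul] at this
  exact (Real.sqrt_sq (norm_nonneg _)).ge.trans (this.trans (Real.sqrt_le_sqrt (hL ..)))

variable {β : ∀ n, V n →L[ℝ] V n →L[ℝ] U n} {K : ℝ} (sA : ∀ n a, Sm I (A n a))
  (sB : ∀ n a, Sm I (B n a)) (K0 : 0 ≤ K) (h0 : ∀ n, ‖β n‖ ≤ K)
  (hβ : ∀ n a x s t, B n a x (β n s t) = β n (A n a x s) t + β n s (A n a x t))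
include hβ

theorem nab_bil {n : α} {v l : X n → V n} (sv : Sm I v) (sl : Sm I l) (a : ι) (x : X n) :
    nab I (b.e n) (B n) a (fun y => β n (v y) (l y)) x =
      β n (nab I (b.e n) (A n) a v x) (l x) + β n (v x) (nab I (b.e n) (A n) a l x) := by
  simp only [nab, Sob92.dv_app (SA.clm (β n) (sv x)).md (SA.md (sl x)), Sob92.dv_clm (β n) (SA.md (sv x)),
    hβ, map_add, _root_.add_apply]
  abel

include sA sB K0 h0

theorem nd_dd (sv : ∀ n, Sm I (v n)) (sl : ∀ n, Sm I (l n)) (hv : (syD b A v).Le b L₁)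
    (hl : (syD b A l).Le b L₁) (i j : ι) : ND b L₁ B fun n x =>
      β n (nab I (b.e n) (A n) i (v n) x) (nab I (b.e n) (A n) j (l n) x) := by
  have wv := wt_syD sA sv hv 3
  have wl := wt_syD sA sl hl 3
  have w := Wt.bil sB h0 hβ (wv i) (wl j) cn_UU
  have n : ∀ n s t, ‖β n s t‖ ≤ K * ‖s‖ * ‖t‖ := fun n s t =>
    (β n).le_of_opNorm₂_le_of_le (h0 n) le_rfl le_rfl
  refine ⟨w, w.sm, fun R => ⟨⟨K, K0, .of_forall fun q μ hp => (n ..).trans ?_⟩, fun a => ?_⟩⟩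
  · rw [mul_assoc]
    refine mul_le_mul_of_nonneg_left (le_add_of_nonneg_of_le (by positivity) ?_) K0
    exact (mul_le_mul (nab_le hv hp.1 ..) (nab_le hl hp.1 ..) (norm_nonneg _) (Real.sqrt_nonneg _)).trans_eq
      (Real.mul_self_sqrt (b.H_nonneg ..))
  obtain ⟨K1, k1, h1⟩ := Wz78.vb_wt (wv i) [a] (d := 5) le_rfl R (u := fun _ μ => μ ^ 5) fun _ _ => le_rfl
  obtain ⟨K2, k2, h2⟩ := Wz78.vb_wt (wl j) [a] (d := 5) le_rfl R (u := fun _ μ => μ ^ 5) fun _ _ => le_rfl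
  refine ⟨K * K1 + K * K2, by positivity, (h1.and h2).mono fun q hq μ hp => ?_⟩
  have m0 : 0 ≤ μ := zero_le_one.trans hp.1
  have e : √(b.H L₁ 0 μ 0 q.1 q.2) ≤ √(μ ^ 4 + b.H L₁ 0 μ 0 q.1 q.2) :=
    Real.sqrt_le_sqrt (le_add_of_nonneg_left (by positivity))
  rw [add_mul]
  refine (congrArg norm (nab_bil hβ ((wv i).sm _) ((wl j).sm _) a q.2)).trans_le ?_
  refine (norm_add_le _ _).trans (add_le_add ((n ..).trans ?_) ((n ..).trans ?_))
  · exact (mul_le_mul (mul_le_mul_of_nonneg_left (hq.1 μ hp) K0) ((nab_le hl hp.1 ..).trans e)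
      (norm_nonneg _) (by positivity)).trans_eq (by ring)
  · exact (mul_le_mul (mul_le_mul_of_nonneg_left ((nab_le hv hp.1 ..).trans e) K0) (hq.2 μ hp)
      (norm_nonneg _) (by positivity)).trans_eq (by ring)

/-- one half of a current -/
theorem cu_half (hc : ∀ a a' k, b.CS fun n => b.c n a a' k)
    (pr : ∀ n a x, ∑ k, b.P n a k x • A n k x = A n a x) (sv : ∀ n, Sm I (v n)) (sl : ∀ n, Sm I (l n))
    (bv : b.Bd v) (bl : b.Bd l) (cr : Crv b (b.cx L₀ 3) A l)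
    (hv : E2 b L₀ fun L _ => (syD b A v).Le b L) (hl : E2 b L₀ fun L _ => (syD b A l).Le b L) :
    CU b L₀ B fun a n x => β n (v n x) (nab I (b.e n) (A n) a (l n) x) := by
  refine (hv.and hl).mono fun L L₁ a0 a1 ⟨hv, hl⟩ => ?_
  have c := fun a => Wt.bil sB h0 hβ (wt_sW sA sv bv (wt_syD sA sv hv 3)) (wt_syD sA sl hl 3 a) cn_WU
  refine ⟨fun a n x => ?_, c, fun i j => ?_⟩
  · simp only [← map_smul, ← map_sum, (b.frm n).projN ⟨fun a x => sA n a x, pr n⟩]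
  obtain ⟨R, hR, eR⟩ := cr.le a0 i j
  have p : ∀ {u}, (∀ n, Sm I (u n)) → b.Bd u → (syD b A u).Le b L → Wt (b.cx L₁ 3) A (sP 3) u :=
    fun s1 s2 s3 => (wt_sW sA s1 s2 (wt_syD sA s1 (s3.trans a1) 3)).mono (sW_sP (by omega))
  refine ((((nd_dd sA sB K0 h0 hβ sv sl (hv.trans a1) (hl.trans a1) i j).sub
    (nd_dd sA sB K0 h0 hβ sv sl (hv.trans a1) (hl.trans a1) j i)).add
      (.of (Wt.bil sB h0 hβ (p sv bv hv) (hR.app sA (p sl bl hl) cn_UP) cn_PN))).add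
        (.sum sB fun k => (ND.of (((c k).le a1).mono fun k => (sC_sU k).trans (sU_sN k))).smul
          (hc i j k))).congr fun n x => ?_
  have s := fun a => sm_nab (b.frm n).se (sA n) (sl n) a
  have e := eR n [] x
  simp only [Dw] at e
  rw [nab_bil hβ (sv n) (s j), nab_bil hβ (sv n) (s i), ← e,
    ← (b.frm n).nab_comm (sA n · x) i j (sl n x)]
  simp only [map_sub, map_sum, map_smul]
  abel

end res

end Crest.Agent.X212.Th31
end
end

-- ▼ part X212/Cmp73/Lim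

/-!
# X212 / COMP (helper73), part 8: converging backgrounds, hypotheses and conclusion of COMP
-/

set_option autoImplicit false
set_option linter.unusedSectionVars false
open Set Filter Topology Function MeasureTheory Metric
open scoped ContDiff Manifold InnerProductSpace NNReal

noncomputable section
namespace Crest.Agent.X212.Cmp73

open An
open Sob92 (dv)
open Wz78 (nab dir)
open Pj41 (FRel cmM Iso0)

section nF
variable {α M : Type} [TopologicalSpace M] {l : Filter α} {U U' : Set M} {x : M}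

/-- first `n → l`, then `y → x` inside `U` -/
def nF (l : Filter α) (U : Set M) (x : M) : Filter (α × M) := (𝓝[U] x).bind fun y => l ×ˢ 𝓝 y

theorem ev_nF {p : α × M → Prop} :
    (∀ᶠ q in nF l U x, p q) ↔ ∀ᶠ y in 𝓝[U] x, ∀ᶠ q in l ×ˢ 𝓝 y, p q := eventually_bind

theorem nF_mono (h : U ⊆ U') : nF l U x ≤ nF l U' x := fun _ hD =>
  (nhdsWithin_mono x h) hD

theorem le_nF (hx : x ∈ U) : l ×ˢ 𝓝 x ≤ nF l U x := fun _ hD =>
  (ev_nF.1 hD).self_of_nhdsWithin hx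

theorem nF_le : nF l U x ≤ l ×ˢ 𝓝 x := fun D hD => by
  obtain ⟨s, hs, t, ht, h⟩ := mem_prod_iff.1 hD
  refine ev_nF.2 (nhdsWithin_le_nhds ((eventually_eventually_nhds.2 ht).mono fun y hy => ?_))
  exact mem_of_superset (prod_mem_prod hs hy) h

theorem nF_eq (hx : x ∈ U) : nF l U x = l ×ˢ 𝓝 x := le_antisymm nF_le (le_nF hx)

/-- near `x`, the filters of the points of `U` are finer on a given set -/
theorem ev_ev_nF {p : α × M → Prop} (h : ∀ᶠ q in nF l U x, p q) :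
    ∀ᶠ y in 𝓝[U] x, ∀ᶠ q in l ×ˢ 𝓝 y, p q := ev_nF.1 h

/-- the slices of a set of the filter eventually contain the compact sets near `x` -/
theorem nF_compact {p : α × M → Prop} (h : ∀ᶠ q in nF l U x, p q) :
    ∃ N ∈ 𝓝 x, ∀ K, IsCompact K → K ⊆ N ∩ U → ∀ᶠ n in l, ∀ y ∈ K, p (n, y) := by
  obtain ⟨N, hN, h1⟩ := eventually_nhdsWithin_iff.1 (ev_nF.1 h) |>.exists_mem
  exact ⟨N, hN, fun K hK hs => ev_compact hK (p := fun n y => p (n, y)) fun y hy =>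
    h1 y (hs hy).1 (hs hy).2⟩

end nF

variable {E : Type} [NormedAddCommGroup E] [NormedSpace ℝ E] [FiniteDimensional ℝ E]
  [MeasurableSpace E] [BorelSpace E]
  {HM : Type} [TopologicalSpace HM] {I : ModelWithCorners ℝ E HM}
  {E₀ : Type} [NormedAddCommGroup E₀] [NormedSpace ℝ E₀] [FiniteDimensional ℝ E₀]
  [MeasurableSpace E₀] [BorelSpace E₀]
  {H₀ : Type} [TopologicalSpace H₀] {I₀ : ModelWithCorners ℝ E₀ H₀}
  {M : Type} [TopologicalSpace M] [ChartedSpace H₀ M] [IsManifold I₀ ∞ M] [MeasurableSpace M]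
  {ι lam : Type} [Fintype ι] [Fintype lam] {α : Type}
  {X : α → Type} [∀ n, TopologicalSpace (X n)] [∀ n, ChartedSpace HM (X n)]
  [∀ n, IsManifold I ∞ (X n)] [∀ n, MeasurableSpace (X n)] {r : ℕ}

variable (I₀) in
/-- smooth convergence of vector fields on `M` -/
structure VCv (l : Filter α) (v : α → (x : M) → TangentSpace I₀ x) (w : (x : M) → TangentSpace I₀ x) :
    Prop where
  mb : ∀ k x, MB I₀ l x k fun n => dv I₀ (v n) (extChartAt I₀ x)
  pt : ∀ x, Tendsto (fun n => dv I₀ (v n) (extChartAt I₀ x) x) l (𝓝 (dv I₀ w (extChartAt I₀ x) x))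

variable (I I₀ X M ι lam) in
/-- backgrounds `(B n, G n)` on `X n`, which are literally `(B₀, H n)` over the source of `ψ n`;
`H n → G₀` on `M`, and the sources exhaust the complement of the finite set `P` -/
structure Gs where
  l : Ultrafilter α
  B : ∀ n, Base (X n) ι lam
  G : ∀ n, Geo I (X n) ι lam
  B₀ : Base M ι lam
  G₀ : Geo I₀ M ι lam
  H : α → Geo I₀ M ι lam
  ψ : ∀ n, OpenPartialHomeomorph M (X n)
  P : Set M

namespace Gs
variable (g : Gs I I₀ M ι lam X)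

structure OK : Prop where
  h4 : Module.finrank ℝ E₀ = 4
  B : ∀ n, (g.B n).OK I
  G : ∀ n, (g.G n).OK (g.B n)
  B₀ : g.B₀.OK I₀
  G₀ : g.G₀.OK g.B₀
  H : ∀ n, (g.H n).OK g.B₀
  fin : g.P.Finite
  src : ∀ x ∉ g.P, ∀ᶠ q in (g.l : Filter α) ×ˢ 𝓝 x, q.2 ∈ (g.ψ q.1).source
  rel : ∀ n, FRel (g.H n).F (g.G n).F (g.ψ n) (g.ψ n).source
  bo : ∀ n, ∀ x ∈ (g.ψ n).source, ∀ a b c d, (g.B n).o a b c d (g.ψ n x) = g.B₀.o a b c d x
  bl : ∀ n, ∀ x ∈ (g.ψ n).source, (g.B n).l (g.ψ n x) = g.B₀.l x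
  il : ∀ n, (g.B n).il = g.B₀.il
  la : ∀ n, ∀ x ∈ (g.ψ n).source, ∀ a, (g.G n).a a (g.ψ n x) = (g.H n).a a x
  e : ∀ a, VCv I₀ g.l (fun n => (g.H n).F.e a) (g.G₀.F.e a)
  c : ∀ a b k, Cv I₀ g.l univ (fun n => (g.H n).F.c a b k) (g.G₀.F.c a b k)
  a : ∀ a, Cv I₀ g.l univ (fun n => (g.H n).a a) (g.G₀.a a)

/-- the points of `X n` which are close to `x`, seen from `U` -/
def F (U : Set M) (x : M) : Filter (Σ n, X n) := (nF g.l U x).map fun q => ⟨q.1, g.ψ q.1 q.2⟩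

variable (c : ∀ n, Cfg (X n) ι lam r)

/-- the curvature of the family -/
abbrev Fg (n : α) : X n → Fm (ι × ι) (c n).m.A := (c n).m.Fg (g.G n).F (c n).W

/-- the analytic background of a family of configurations -/
def fb (F : Filter (Σ n, X n)) : Fb I ι X where
  F := F
  e n := (g.G n).F.e
  P n := (g.G n).F.P
  c n := (g.G n).F.c
  frm n := Wz78.frm (g.G n).F
  μ n := (g.G n).F.μ
  en n x := ‖g.Fg c n x‖ ^ 2

/-- the base system: the curvature and the derivative of the spinor -/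
def bs : Sy ι X where
  κ := (ι × ι) ⊕ ι
  f := Sum.elim
    (fun s => ⟨fun n => (c n).m.A, fun n => (c n).m.adW (c n).W, fun n x => g.Fg c n x s, false⟩)
    fun a => ⟨fun n => (c n).m.V, fun n => (c n).W,
      fun n => nab I (g.G n).F.e (c n).W a (c n).Φ, true⟩

/-- the energy of the part of `X n` over `N` -/
def en (n : α) (N : Set M) : ENNReal :=
  ∫⁻ x in g.ψ n '' (N ∩ (g.ψ n).source), ENNReal.ofReal (‖g.Fg c n x‖ ^ 2) ∂(g.G n).F.μ

/-- energy concentrates at `x` -/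
def Bub (x : M) : Prop := ∃ ε : ℝ≥0, 0 < ε ∧ ∀ N ∈ 𝓝 x, ∀ᶠ n in (g.l : Filter α), ε ≤ g.en c n N

/-- the exceptional set -/
def S : Set M := g.P ∪ {x | g.Bub c x}

end Gs

/-- the energy is bounded along the filter -/
def Fb.En (b : Fb I ι X) : Prop := ∃ C : ℝ≥0, ∃ D ∈ b.F, ∀ n,
  ∫⁻ x in Sigma.mk n ⁻¹' D, ENNReal.ofReal (b.en n x) ∂b.μ n ≤ C

/-- bounded geometry along the filter -/
structure GB (b : Fb I ι X) (B : ∀ n, Base (X n) ι lam) (G : ∀ n, Geo I (X n) ι lam) : Prop where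
  c : ∀ a a' k, b.CS fun n => (G n).F.c a a' k
  dv : ∀ a, b.CS fun n => (G n).F.dv a
  P : ∀ a a', b.CS fun n => (B n).P a a'
  o : ∀ a a' k k', b.CS fun n => (B n).o a a' k k'
  l : b.CB (tv X ι fun _ => En lam) fun n => (B n).l
  a : ∀ a, b.CB (tv X ι fun _ => En lam) fun n => (G n).a a

namespace Gs
variable (g : Gs I I₀ M ι lam X) (c : ∀ n, Cfg (X n) ι lam r)
  {V : α → Type} [∀ n, NormedAddCommGroup (V n)] [∀ n, NormedSpace ℝ (V n)]

/-- bounded sections whose jets are controlled near `x` by finitely many fields -/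
abbrev Pf (x : M) (A : ∀ n, ι → X n → V n →L[ℝ] V n) (s : ∀ n, X n → V n) : Prop :=
  PF (g.fb c (g.F g.Pᶜ x)) (g.bs c) sP A s

/-- all covariant derivatives are bounded near `x`, off `S` -/
abbrev CB (S : Set M) (x : M) (A : ∀ n, ι → X n → V n →L[ℝ] V n) (s : ∀ n, X n → V n) : Prop :=
  (g.fb c (g.F Sᶜ x)).CB A s

/-- admissible right hand sides of the curvature equation -/
def HC (C : ∀ n, X n → Fm (ι × ι) (c n).m.A) : Prop := ∀ x, ∃ θ : ∀ n, X n → Fm (ι × ι) (c n).m.A,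
  (∀ n y s, θ n y s ∈ (c n).m.gS y) ∧ Th31.TH (g.fb c (g.F g.Pᶜ x)) (g.bs c)
    (fun n => (c n).m.adW (c n).W) (fun i l n y => θ n y (i, l)) ∧
  ∀ s, g.Pf c x (fun n => (c n).m.adW (c n).W) fun n y => (C n y - (c n).m.p2 (g.B n) y (θ n y)) s

/-- the hypotheses of COMP -/
structure Hyp : Prop where
  adm : ∀ n, (c n).Adm (g.B n) (g.G n)
  Φ : ∀ x, (g.fb c (g.F g.Pᶜ x)).Bd fun n => (c n).Φ
  en : ∀ x, (g.fb c (g.F g.Pᶜ x)).En
  D : ∀ x, g.Pf c x (fun n => (c n).W) fun n => dir I (g.G n).F.e (c n).m.ρ (c n).W (c n).Φ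
  C : g.HC c fun n y =>
    (c n).m.p2 (g.B n) y (g.Fg c n y) - (c n).m.mu (g.B n) y ((c n).Φ y) ((c n).Φ y)

variable (c' : Cfg M ι lam r) (S : Set M) (u : ∀ n, M → CL (c n).m.V c'.m.V)

/-- the connection of `c'` minus the transported connection of `c n` -/
def dA (a : ι) (n : α) (x : M) : En (Fin c'.m.N) :=
  ((g.H n).F.D a (u n) x + c'.W a x ∘L u n x - u n x ∘L (c n).W a (g.ψ n x)) ∘L trn (u n x)

/-- convergence of configurations off `S` -/
structure Lim : Prop where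
  adm : c'.Adm g.B₀ g.G₀
  P : g.P ⊆ S
  fin : ∀ K, IsCompact K → (S ∩ K).Finite
  iso : ∀ x ∉ S, ∃ O, IsOpen O ∧ x ∈ O ∧
    ∀ᶠ n in (g.l : Filter α), Iso0 I₀ (cmM (g.ψ n) (c n).m) c'.m O (u n)
  A : ∀ a, Cv I₀ g.l Sᶜ (g.dA c c' u a) fun _ => 0
  Φ : Cv I₀ g.l Sᶜ (fun n x => u n x ((c n).Φ (g.ψ n x))) c'.Φ
  z : Tendsto (fun n => (c n).z) g.l (𝓝 c'.z)

/-- convergence of spinor fields -/
structure LV (s : ∀ n, X n → (c n).m.V) (s' : M → c'.m.V) : Prop where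
  sm : Sm I₀ s'
  cv : Cv I₀ g.l Sᶜ (fun n x => u n x (s n (g.ψ n x))) s'

/-- convergence of endomorphism fields -/
structure LA (s : ∀ n, X n → (c n).m.A) (s' : M → c'.m.A) : Prop where
  sm : Sm I₀ s'
  cv : Cv I₀ g.l Sᶜ (fun n x => Eqv71.cj (u n x) (s n (g.ψ n x))) s'

end Gs

end Crest.Agent.X212.Cmp73
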