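import Crest.Agent.X212.Cmp73.Lc
import Crest.Agent.X212.Cmp73.Kg
import Crest.Agent.X212.Cmp73.Spl
import Crest.Agent.X212.Shi84.Zg
import Crest.Agent.X212.Cqn41.Q2
import Crest.Agent.X212.Cqn41.Ew
import Crest.Agent.X212.Cqn41.Cyc
import Crest.Agent.X212.Cyl12.Lim
import Crest.Agent.X212.Pat85.Tr
import Crest.Agent.X212.M.Wgw

/-!
# X212 / COMP (helper73), part 25: compactness of deep windows of necks
-/

set_option autoImplicit false
set_option linter.unusedSectionVars false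
open Set Filter Topology Function MeasureTheory
open scoped ContDiff Manifold InnerProductSpace NNReal ENNReal

noncomputable section
namespace Crest.Agent.X212.Cmp73

open An Nd18 Eqv71 Shi84 Cyf70 Bki64 M
open Mp86 (Dom)

variable {E : Type} [NormedAddCommGroup E] [NormedSpace ℝ E] [FiniteDimensional ℝ E]
  [MeasurableSpace E] [BorelSpace E]
  {HM : Type} [TopologicalSpace HM] {I : ModelWithCorners ℝ E HM} [I.Boundaryless]
  {E3 : Type} [NormedAddCommGroup E3] [NormedSpace ℝ E3] [FiniteDimensional ℝ E3]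
  [MeasurableSpace E3] [BorelSpace E3]
  {H3 : Type} [TopologicalSpace H3] {I3 : ModelWithCorners ℝ E3 H3} [I3.Boundaryless]
  {Y : Type} [TopologicalSpace Y] [ChartedSpace H3 Y] [IsManifold I3 ∞ Y] [T2Space Y]
  [MeasurableSpace Y] [BorelSpace Y] [SecondCountableTopology Y] [CompactSpace Y]
  {κ lam α : Type} [Fintype κ] [Fintype lam] {r m : ℕ} {D : YD I3 Y κ lam}

variable (D) in
theorem wg_cyl : Wg D.G.F fun z => Real.exp (-(√(1 + z.2 ^ 2) / 4)) := by
  obtain ⟨h1, f', f'', h2⟩ := c2_sa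
  have e : ∀ t : ℝ, √(1 + t ^ 2) = sa t + 1 := fun t => (sub_add_cancel ..).symm
  have s : ContDiff ℝ ∞ fun t => Real.exp (-((sa t + 1) / 4)) := by fun_prop
  have d := fun t => ((((h2 t).1.add_const 1).div_const 4).neg.exp).deriv
  simp only [e]
  refine ⟨sm_snd s, fun _ => Real.exp_pos _, fun x => ?_, ?_⟩
  · rw [Fintype.sum_option, show D.G.F.D none _ = _ from D_none_snd D.F.toPre s,
      Finset.sum_eq_zero fun a _ => by rw [show D.G.F.D (some a) _ = _ from D_some_snd D.F.toPre s a]; simp]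
    have := d x.2
    simp only [Pi.neg_apply] at this
    simp only [this]
    nlinarith [sq_abs (f' x.2), abs_nonneg (f' x.2), (h2 x.2).2.2.1, mul_le_mul_of_nonneg_left
      (show f' x.2 ^ 2 ≤ 1 from (sq_le_one_iff_abs_le_one _).2 (h2 x.2).2.2.1)
      (sq_nonneg (Real.exp (-((sa x.2 + 1) / 4))))]
  · have := D.F.fin
    refine (lintegral_mono fun x => ?_).trans_lt (((setLIntegral_univ _).symm.trans_le (lint_tm D.nk
      (f := fun t => ENNReal.ofReal (Real.exp (-(1 * |t|)))) (by fun_prop))).trans_lt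
        (ENNReal.mul_lt_top (measure_lt_top ..) (eI_lt one_pos)))
    rw [Real.enorm_eq_ofReal (Real.exp_pos _).le, ← ENNReal.ofReal_pow (Real.exp_pos _).le, ← Real.exp_nat_mul]
    exact ENNReal.ofReal_le_ofReal (Real.exp_le_exp.2 (by
      have := le_sa x.2; change _ ≤ -(1 * |x.2|); push_cast; linarith))

variable {Z : α → Type} [∀ n, TopologicalSpace (Z n)] [∀ n, ChartedSpace HM (Z n)]
  [∀ n, IsManifold I ∞ (Z n)] [∀ n, MeasurableSpace (Z n)] [∀ n, T2Space (Z n)]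
  [∀ n, BorelSpace (Z n)] [∀ n, SecondCountableTopology (Z n)]

namespace NF
variable (F : NF I Z D r m) (U : Ultrafilter α) (s : α → ℝ)

/-- another index set -/
abbrev re {β : Type} (f : β → α) : NF I (fun b => Z (f b)) D r m :=
  ⟨fun b => F.B (f b), fun b => F.G (f b), fun b => F.K (f b), fun b => F.y (f b), fun b => F.τ (f b),
    fun b => F.q (f b), fun b => F.w (f b)⟩

abbrev g : Gs I (IC I3) (Y × ℝ) (Option κ) lam Z := zG U F.K s

abbrev up : Up I Z (F.g U s) r :=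
  ⟨F.B, F.G, fun _ => univ, fun _ => id, fun _ => id, fun n x b a => (F.B n).P b a x, fun n => (F.B n).l,
    F.y, F.y, fun n => (F.y n).m.p⟩

abbrev cu : Cqn41.Up I Unit Z (F.g U s) F.y :=
  ⟨F.B, F.G, F.y, fun _ => univ, fun _ => id, fun _ => id, fun n x b a => (F.B n).P b a x,
    fun n => (F.B n).l, fun n => (F.y n).m.p, fun _ => univ⟩

abbrev nu : Cqn41.NU (F.cu U s) D := ⟨F.K, F.K, fun _ => D.nk, fun _ => s⟩

variable {F U s} {N : ND Y lam} {q₀ : YW I3 Y →₀ ℝ}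

theorem OK.re {l : Filter α} (h : F.OK N l q₀) {β : Type} {f : β → α} {l' : Filter β}
    (hf : Tendsto f l' l) : (F.re f).OK N l' q₀ :=
  ⟨h.h3, h.con, h.hD, h.hN, fun _ => h.sol _, h.cv.imp fun _ k => ⟨fun _ => k.1 _, fun w => (k.2 w).comp hf⟩,
    h.loc.imp fun _ k => hf.eventually k, h.ap.imp fun _ => .imp fun _ k _ => k _⟩

theorem OK.zb {l : Filter α} (h : F.OK N l q₀) : ZB D F.B F.G :=
  let ⟨_, _, k⟩ := h.ap; ⟨h.h3, h.hD, fun n => (k n).1.lh.hB, fun n => (k n).1.lh.hG⟩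

variable (h : F.OK N U q₀) (hs : Deep U F.K s)
include h hs

theorem OK.bk : (F.g U s).Bk F.y := by
  obtain ⟨S, C, k⟩ := h.ap
  have hg := zG_ok h.zb hs
  refine hg.bk (fun _ ha hP fin hF hΦ => Pat85.ga hg ha (E' := EuclideanSpace ℝ (Fin 4)) ?_ (by simp)
    hP fin hF hΦ) (Cht98.tame_cyl D.F h.h3.le) (fun n => (h.sol n).toAdm)
    ⟨√C, .of_forall fun n x => Real.le_sqrt_of_sq_le ((k n).1.le.Φ x)⟩
  simpa using Pat85.cvxOn_prod (I := IC I3) (J := I3) (E' := EuclideanSpace ℝ (Fin 4))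
    (ContinuousLinearEquiv.ofFinrankEq (by simp [h.h3])) (OpenPartialHomeomorph.refl _) isOpen_univ
    convex_univ (subset_univ _) (fun _ _ => contMDiffAt_id) fun _ _ => contMDiffAt_id

theorem OK.up : (F.up U s).OK :=
  let ⟨_, _, k⟩ := h.ap
  ⟨h.bk hs, fun n => have l := (k n).1.lh; pb_of_ceq (kg_refl l.hB l.hG isOpen_univ) denseRange_id
    (Cqn41.ad0_of l) (Cqn41.ad0_of l) (ceq_refl l.hB l.hG (Cqn41.ad0_of l) isOpen_univ), fun n => (k n).1.lh⟩

omit h in
theorem src (x : Y × ℝ) : ∀ᶠ n in (U : Filter α), x ∈ (nsh (F.K n) (s n)).source :=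
  (hs.cw 1 _).mono fun _ hn => (mem_nsh ..).2 (Dp_sub one_pos (hn _ le_rfl))

theorem OK.nu : (F.nu U s).OK := by
  have k := h.up hs
  have r := fun n => nkR_refl (O := univ) (F.K n) fun _ e => (e trivial).elim
  refine ⟨⟨k.bk, k.pb, k.lh, fun _ => isClopen_univ⟩, r, fun _ => subset_univ _,
    fun n => (r n).sr (k.lh n).hB, ⟨fun _ => ⟨fun _ _ => notMem_empty _, fun x _ => ?_, fun x _ => ?_,
      fun R => (hs R).mono fun n hn a ha => by linarith [hn.1 a ha],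
      fun R => (hs R).mono fun n hn a ha => by linarith [hn.2 a ha], fun R => ?_⟩,
      fun _ _ e => (e () trivial).elim, fun _ => univ, fun _ => isClopen_univ, Subsingleton.pairwise,
      fun _ => subset_univ _⟩, Subsingleton.pairwise, fun _ => subset_univ _⟩
  · exact tendsto_const_nhds.congr' ((src hs x).mono fun n hn =>
      ((congrArg (· - s n) (tm_nsh _ _ hn)).trans (add_sub_cancel_right ..)).symm)
  · exact (src hs x).mono fun n hn => (congrArg Prod.fst ((F.K n).ψ.left_inv hn.2) :)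
  · refine ⟨_, cwin_cpt 0 R, subset_univ _, .of_forall fun n x hx e => ?_⟩
    have t := (F.K n).dp_sub one_half_pos hx
    refine ⟨(((F.K n).ψ.symm x).1, (F.K n).tm x - s n), ⟨trivial, by simpa using abs_le.1 e⟩, ?_⟩
    exact (nsh_apply ..).trans (by
      rw [sub_add_cancel, ← (F.K n).snd_symm t]; exact (F.K n).ψ.right_inv t)

theorem OK.wr (y : Y) : (F.g U s).WR fun n => F.w n ((F.K n).ψ (y, s n)) ∘ id := by
  obtain ⟨S, C, k⟩ := h.ap
  refine ⟨fun n => ((k n).1.wts.wt _).sm.continuous.measurable, _, wg_cyl D, fun x => nF_le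
    (((hs.ev 1 x).and ((hs 1).prod_inl _)).mono fun q hq => le_trans ?_ (le_abs_self _))⟩
  have e1 := tm_nsh _ _ ((mem_nsh (F.K q.1) (s q.1)).2 (Dp_sub one_pos hq.1))
  have e2 : (F.K q.1).tm ((F.K q.1).ψ (y, s q.1)) = s q.1 :=
    (F.K _).tm_ψ _ ((F.K _).mem_src.2 (Dp_sub one_pos hq.2))
  have := (k q.1).2.low _ (mem_preimage.2 (mem_of_eq_of_mem e2 hq.2)) _
    (mem_preimage.2 (mem_of_eq_of_mem e1 hq.1))
  rwa [e1, e2, add_sub_cancel_right] at this

theorem OK.qt : (F.up U s).QT (m := m) (fun n => N.pt (F.K n) (F.q n)) (N.pt D.nk q₀) := by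
  obtain ⟨S, C, k⟩ := h.ap
  have := h.con
  obtain ⟨y⟩ : Nonempty Y := inferInstance
  have o := h.nu hs
  have b := h.bk hs
  have a : (F.nu U s).AP _ _ S C := ⟨fun n => (k n).1, fun n => (k n).2, h.wr hs y⟩
  have e : N.smul 1 = N := by cases N; simp [ND.smul]
  have q1 : (F.up U s).QT (m := m) _ _ := o.q1 m _ (Th31.cux b.ok b.adm) (o.cyc_of h.hD (fun _ _ _ => rfl)
    (.of_forall fun n => (k n).1.wts.l4) fun _ _ _ _ h V h₀ => ⟨Cyl12.qs b h V h₀,
      fun _ _ _ hl hη _ _ lb a => Cyl12.qa b h V h₀ hl hη lb a⟩) N h.hN _ 1 tendsto_const_nhds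
  have q2 : ∀ T : YW I3 Y, (F.up U s).QT (m := m) _ _ := fun T =>
    o.q2 m N h.hN (o.ew a h.hN) T.1 T.2 (a.cvt T.2)
  rw [e] at q1
  exact (q1.add (Up.QT.fsum (h.up hs) h.cv q2)).congr (fun _ => ⟨fun _ => rfl, fun _ => rfl, fun _ => rfl⟩)
    fun _ => by
      simp only [Cqn41.psum, Finset.univ_unique, Finset.sum_singleton]
      exact ⟨fun _ => rfl, fun _ => rfl, fun _ => rfl⟩

theorem OK.le : (F.g U s).LE (fun n => Wz78.dir I (F.G n).F.e (F.y n).m.ρ (F.y n).W (F.y n).Φ)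
      (fun n => pV id (F.y n).m.p ((N.pt (F.K n) (F.q n) : Pt _ _ _ r m).D (F.y n))) ∧
    (F.g U s).LE (fun n x => (F.y n).m.p2 (F.B n) x ((F.g U s).Fg F.y n x) -
      (F.y n).m.mu (F.B n) x ((F.y n).Φ x) ((F.y n).Φ x)) fun n => pC id (fun x b a => (F.B n).P b a x)
        (F.y n).m.p ((N.pt (F.K n) (F.q n) : Pt _ _ _ r m).C (F.y n)) := by
  obtain ⟨d, k⟩ := h.loc
  have u := h.up hs
  have e := fun x => ((hs.ev (max d 1) x).and (k.prod_inl _)).mono fun q hq => hq.2 _ (mem_preimage.2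
    (mem_of_eq_of_mem (tm_nsh _ _ ((mem_nsh (F.K q.1) (s q.1)).2 (Dp_sub one_pos
      (Dp_mono (le_max_right ..) hq.1)))) (Dp_mono (le_max_left ..) hq.1)))
  exact ⟨fun x _ => (e x).mono fun q hq => (congrFun ((u.pb q.1).eD (h.sol _).sm) _).trans
    (congrArg (trn _) ((sub_eq_zero.1 ((h.sol _).D _)).trans hq.1)), fun x _ => (e x).mono fun q hq =>
      ((u.pb q.1).eC _).trans (congrArg ((F.up U s).tC _ _) ((sub_eq_zero.1 ((h.sol _).C _)).trans hq.2))⟩

theorem OK.hyp : (F.g U s).Hyp F.y := by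
  obtain ⟨S, C, k⟩ := h.ap
  have := h.con
  obtain ⟨y⟩ : Nonempty Y := inferInstance
  exact (h.bk hs).hyp' (h.qt hs) (h.le hs).1 (h.le hs).2
    ((h.wr hs y).en fun n => lint_le (k n).1.le _)

omit hs in
theorem OK.hypZ : HypZ U F.K F.y := fun _ v hs => (h.re v).hyp hs

theorem OK.loss (kt : Loc66.KT (Option κ) lam) {b u} (l : (F.g U s).Lim F.y b ((F.g U s).S F.y) u) (R₀ : ℝ)
    (hS : (F.g U s).S F.y ⊆ win Y 0 R₀) : ∃ k : ℕ, (k = 0 ↔ (F.g U s).S F.y = ∅) ∧ ∀ R, R₀ ≤ R →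
      Tendsto (fun a => ∫ x in cw Y 0 R, kZ D (sh (s a) (F.c a)) x ∂D.Z.μ) U
        (𝓝 (∫ x in cw Y 0 R, kZ D (noz b) x ∂D.Z.μ + k)) := by
  obtain ⟨S, C, a⟩ := h.ap
  have hg := zG_ok h.zb hs
  have H := h.hyp hs
  have w : ∀ {R R'}, R < R' → cw Y 0 R ⊆ win Y 0 R' := fun e =>
    prod_mono_right (Icc_subset_Ioo (by linarith) (by linarith))
  have iS : ∀ T, ∀ R, R₀ ≤ R → T ∩ (F.g U s).S F.y ⊆ interior (cw Y 0 R) := fun T R hR =>
    inter_subset_right.trans (hS.trans (interior_maximal ((win_sub (by simpa)).trans (win_cw ..)) (win_op ..)))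
  obtain ⟨k, k1, k2, k3⟩ := l.kap hg kt H (cwin_cpt 0 R₀) (fun _ _ => notMem_empty _) (iS _ _ le_rfl)
    fun p _ => nc_of_dom hg (notMem_empty p) (fun _ _ => sq_nonneg _) (.of_forall fun n => (a n).1.p2)
  rw [inter_eq_right.2 (hS.trans (win_cw ..))] at k1 k2
  refine ⟨k, ⟨fun e => encard_eq_zero.1 (by simpa [e] using k1), k2⟩, fun R hR => ?_⟩
  refine (l.bub hg H.adm (win_op 0 (R + 1)) ((cwin_cpt ..).closure_of_subset (win_cw ..))
    fun _ _ => notMem_empty _).loss_congr (cwin_cpt 0 R₀) (cwin_cpt 0 R) (w (by linarith)) (w (by linarith))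
    (iS _ _ hR) (iS _ _ le_rfl) (k3.congr' ((hg.ev_src (cwin_cpt 0 R₀) fun _ _ => notMem_empty _).mono
      fun n hn => ?_))
  simpa only [inter_univ] using (hg.int_kd (c := F.y) (cwin_cpt 0 R₀) hn MeasurableSet.univ (by
    simpa only [inter_univ] using ((cwin_cpt 0 R₀).image_of_continuousOn
      (((F.g U s).ψ n).continuousOn.mono hn)).measurableSet)).symm

theorem OK.lm (kt : Loc66.KT (Option κ) lam) :
    ∃ γ S v, Lm N D q₀ U (ρ := fun _ => r) (fun n => sh (s n) (F.c n)) γ S v := by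
  obtain ⟨S, C, a⟩ := h.ap
  have k := h.bk hs
  have H := h.hyp hs
  have hd : ∀ᶠ n in (U : Filter α), _ := .of_forall fun n => (a n).1.p2
  obtain ⟨b, u, l⟩ := k.core.ex H
  obtain ⟨e1, e2⟩ := k.sol' (h.qt hs) (h.le hs).1 (h.le hs).2 ⟨H, l, bf_cyl h.zb k.adm hd h.hypZ
    (.of_forall fun n => en_of_lb _ (a n).2.en) hs l⟩
  refine ⟨noz b, _, u, ⟨⟨l.adm.ok, l.adm.conn, l.adm.sm, l.adm.pos, .inl rfl⟩,
    fun x => (congrArg (_ - ·) (pt_noz (m := m) N D.nk b q₀ x).1).trans (e1 x),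
    fun x => (congrArg (_ - ·) (pt_noz (m := m) N D.nk b q₀ x).2).trans (e2 x), fun i => i.elim0⟩,
    CvC.of_cv l.op (fun x hx => let ⟨O, o1, o2, o3⟩ := l.iso x hx; ⟨O, o1.mem_nhds o2, o3⟩) l.A
      ((l.Φ.sub (.fixed l.op fun x _ => l.adm.sm x)).congr (fun _ _ => .of_forall fun q => ?_)
        fun _ _ => (sub_self _).symm),
    fun p hp => conc h.zb k.adm hd hs (hp.resolve_left (notMem_empty p)), h.loss hs kt l⟩
  rw [Bki64.dP, Circle.coe_one, cs_one]; rfl

omit h hs in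
/-- **compactness of windows** -/
theorem OK.cz (kt : Loc66.KT (Option κ) lam) {l : Filter α} (h : F.OK N l q₀) : F.CZ N l q₀ :=
  fun _ v hs => (h.re v).lm hs kt

end NF

end Crest.Agent.X212.Cmp73
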